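import Crest.Agent.X262.Rl57.LemA
import Crest.Agent.X262.RC14.Main
import Crest.Agent.X262.Sub4.Bas
import Crest.Agent.X262.Reg18.Defs

/-!
# Row 262, Lemma A (helper57), part 2

* `lift_le` : lifting of adjoint sections, followed by Hartogs on the `H`-model;
* `gr`      : an exceptional divisor with `p_g > 0` has coefficient at least one;
* `dif`     : the different is effective;
* `lemA : Reg.LemAStmt`.
-/

set_option autoImplicit false
set_option linter.unusedSectionVars false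

open IntermediateField Module
open scoped KaehlerDifferential

namespace Crest.Agent.X262.Rl57

open Crest.Agent.X277 Crest.Agent.X277.BD Crest.Agent.X277.Pst Crest.Agent.X277.Lef
open Crest.Agent.X277.BD.Br (On oP kP)
open Crest.Agent.X277.BD.Cyc (Rf plV lnr_plV)
open Crest.Agent.X262.Geo (od dv)
open Crest.Agent.X262.Mod Crest.Agent.X262.Sark Crest.Agent.X262.Bnd
open Crest.Agent.X262.Loc (cf)

variable {F : Type} [Field F] [Algebra ℂ F] [Algebra.EssFiniteType ℂ F] {n s : ℕ}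
  {b : Basis (Fin (n + 1)) F Ω[F⁄ℂ]} {H G : BD ℂ F} {V : RZ ℂ F}

/-- adjoint sections on `V` lift, and their powers are sections of `G` -/
theorem lift_le (hH : IsMod H) (hG : Car H G) (hV : Dvs V)
    (b' : Basis (Fin n) (Rf V) Ω[(Rf V)⁄ℂ])
    (hT : ∀ (W : PModel ℂ F) U, Prm (oP W) U → Prm H U → U ≠ V → s * od U (kP W b) ≤ od U G)
    (hE : ∀ W : PModel ℂ F, Prm (oP W) V → Prm H V → s * (od V (kP W b) + 1) ≤ od V G) :
    ∃ (P : PModel ℂ F) (g : F), Prm (oP P) V ∧ g ≠ 0 ∧ od V (pr ℂ g) = od V (kP P b) + 1 ∧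
      ∀ N : BD ℂ F, Nef N → Big N → Car H N → N.val V = 1 → ∀ σ : Rf V, σ ≠ 0 →
        (∀ w : RZ ℂ (Rf V), ∃ z : Fin n → Rf V, (∀ l, z l ∈ w.1) ∧
          w.v σ ≤ w.v (jac b' z) * ((plV V).res N).val w) →
        ∃ f : F, V.v f = 1 ∧ (plV V).r f = σ ∧ s • pr ℂ f ≤ G - s • pr ℂ g + s • N := by
  obtain ⟨P, g, h1, h2, h3, h4⟩ := RC14.exists_lift hV b b' {H}
  have h5 := Geo.car_of_On (h2 _ (Finset.mem_singleton_self _))
  have hg := ne_of_val h3
  have h6 : od V (pr ℂ g) = od V (kP P b) + 1 := by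
    rw [← Geo.od_dv_self h1, ← map_add, Geo.od_eq_iff hV, val_pr hg, h3]
  refine ⟨P, g, h1, hg, h6, fun N h7 h8 h9 h10 σ h11 h12 => ?_⟩
  obtain ⟨f, h13, rfl⟩ := h4 N h7 h8 (Geo.car_iff_On.1 (h5.trans Br.free_oP h9)) h10 σ h12
  have h14 : V.v f = 1 := Pl.r_ne_zero_iff.1 h11
  refine ⟨f, h14, rfl, Geo.le_of_od hH ((car_pr f).nsmul s)
    ((hG.sub ((car_pr g).nsmul s)).add (h9.nsmul s)) fun U hU => ?_⟩
  have h15 := mul_le_mul_of_nonneg_left (Geo.od_mono (V := U)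
    ((pr_le_iff (RZ.ne_zero_iff.1 (h14 ▸ one_ne_zero))).2 h13)) (Int.natCast_nonneg s)
  simp only [map_add, map_sub, map_nsmul, nsmul_eq_mul] at h15 ⊢
  by_cases h : U = V
  · subst h
    rw [Geo.od_dv_self h1] at h15
    linarith [hE P h1 hU]
  · rw [Geo.od_dv_ne (h5.prm hU) h] at h15
    linarith [hT P U (h5.prm hU) hU h]

theorem exists_norm (hH : IsMod H) (V : RZ ℂ F) : ∃ N : BD ℂ F, IsMod N ∧ Car H N ∧ 0 ≤ N ∧
    N.val V = 1 ∧ Lin ((plV V).rs H) ((plV V).res N) := by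
  obtain ⟨u, h1, h2⟩ := hH.free.exists_gen V
  have h3 : Lin (H - pr ℂ u) H := ⟨u⁻¹, inv_ne_zero (ne_of_val h2), by rw [pr_inv, sub_eq_add_neg]⟩
  exact ⟨H - pr ℂ u, isMod_iff.2 ⟨h3.free hH.free, h3.big hH.big⟩,
    (car_self hH.free).sub (car_pr u), sub_nonneg.2 ((pr_le_iff (ne_of_val h2)).2 h1),
    Pl.val_sub_gen (p := plV V) h2, Pl.lin_rs (p := plV V) h2⟩

/-- **GR**: an exceptional divisor with a regular top form has coefficient at least one -/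
theorem gr (hH : IsMod H) (hG : Car H G)
    (hT : ∀ (W : PModel ℂ F) U, Prm (oP W) U → Prm H U → s * od U (kP W b) ≤ od U G)
    (hn : ¬ Prm H V) (hP : Rul.PG ℂ (Rf V) n) {W : PModel ℂ F} (hW : Prm (oP W) V) :
    s * (od V (kP W b) + 1) ≤ od V G := by
  obtain ⟨b', σ, h0, hσ⟩ := hP
  obtain ⟨P, g, h1, -, h2, h3⟩ := lift_le (b := b) hH hG hW.dvs b' (fun W U h1 h2 _ => hT W U h1 h2)
    fun _ _ h => absurd h hn
  obtain ⟨N, h4, h5, h6, h7, -⟩ := exists_norm hH V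
  obtain ⟨f, h8, -, h9⟩ := h3 N h4.free.nef h4.big h5 h7 σ h0 fun w => by
    obtain ⟨z, h8, h9⟩ := hσ w
    exact ⟨z, h8, h9.trans (le_mul_of_one_le_right' (Pl.res_nonneg (p := plV V) h7 h6 w))⟩
  have h10 := Geo.od_mono (V := V) h9
  have h11 : od V (pr ℂ f) = 0 := by
    rw [Geo.od_eq_zero hW.dvs, val_pr (RZ.ne_zero_iff.1 (h8 ▸ one_ne_zero)), h8]
  simp only [map_add, map_sub, map_nsmul, nsmul_eq_mul, h11, h2,
    (Geo.od_eq_zero hW.dvs).2 h7] at h10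
  rw [Geo.od_kP_eq hW h1]
  linarith

/-- **DIF**: the different is effective -/
theorem dif (hH : IsMod H) (hG : Car H G) (hV : Prm H V) (b' : Basis (Fin n) (Rf V) Ω[(Rf V)⁄ℂ])
    (hT : ∀ (W : PModel ℂ F) U, Prm (oP W) U → Prm H U → U ≠ V → s * od U (kP W b) ≤ od U G)
    (hE : ∀ W : PModel ℂ F, Prm (oP W) V → od V G = s * (od V (kP W b) + 1)) :
    ∃ G', Lin G' ((plV V).rs G) ∧ ∀ (Q : PModel ℂ (Rf V)) w, Prm (oP Q) w →
      Prm ((plV V).rs H) w → s * od w (kP Q b') ≤ od w G' := by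
  have := Geo.essFT_Rf hV.dvs
  obtain ⟨P, g, h1, hg, h2, h3⟩ := lift_le (b := b) hH hG hV.dvs b' hT fun W h _ => (hE W h).ge
  have h4 : (G - s • pr ℂ g).val (plV V).V = 1 := (Geo.od_eq_zero hV.dvs).1 (by
    rw [map_sub, map_nsmul, nsmul_eq_mul, h2, hE P h1, sub_self])
  refine ⟨(plV V).res (G - s • pr ℂ g), ?_, fun Q w h5 h6 => ?_⟩
  · refine (Pl.lin_rs_res h4).symm.trans (Fam.lin_rs_congr _ ⟨(g ^ s)⁻¹, by simp [hg], ?_⟩)
    rw [pr_inv, pr_pow hg, sub_eq_add_neg]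
  obtain ⟨N, h7, h8, -, h9, h10⟩ := exists_norm hH V
  have h11 := Sub4.isMod_rs hH hV
  have h12 : IsMod ((plV V).res N) := isMod_iff.2 ⟨h10.symm.free h11.free, h10.symm.big h11.big⟩
  have h13 : Prm ((plV V).res N) w := ((car_self h12.free).of_lin h10).prm h6
  obtain ⟨m, hm⟩ := h12.exists_mov (kP Q b')
  obtain ⟨u, h14, h15, h16⟩ := hm (m + 1) m.le_succ
  obtain ⟨σ, h17, h18⟩ := h14.exists_gen w
  have h19 : ((m + 1) • N).val (plV V).V = 1 := by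
    rw [val_nsmul]
    exact h9.symm ▸ one_pow _
  obtain ⟨f, h20, rfl, h21⟩ := h3 ((m + 1) • N) (h7.free.nsmul _).nef (h7.big.nsmul m.succ_pos)
    (h8.nsmul _) h19 σ (ne_of_val h18) fun w' => by
      obtain ⟨z, h20, h21⟩ := Sark27.exists_jac Q w' b'
      refine ⟨z, fun l => mem_of_loc (h20 l), ?_⟩
      rw [h21, Pl.res_nsmul (p := plV V) h9, mul_comm, ← val_add]
      exact Sec_mono h15 h17 w'
  have h22 : (pr ℂ f).val (plV V).V = 1 := (val_pr (RZ.ne_zero_iff.1 (h20 ▸ one_ne_zero)) V).trans h20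
  have h23 : ∀ {a : BD ℂ F}, a.val (plV V).V = 1 → (s • a).val (plV V).V = 1 := fun h => by
    rw [val_nsmul, h, one_pow]
  have h24 := Geo.od_mono (V := w) (Pl.res_mono (h23 h22) (by rw [val_add, h4, h23 h19, mul_one]) h21)
  rw [Pl.res_add h4 (h23 h19), Pl.res_nsmul h22, Pl.res_nsmul h19, Pl.res_nsmul (p := plV V) h9,
    Pl.res_pr (p := plV V) h20, map_add, map_nsmul, map_nsmul,
    (Geo.od_eq_iff h5.dvs).2 ((val_pr (ne_of_val h18) w).trans (h18.trans (h16 w h13))), map_add,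
    nsmul_eq_mul, nsmul_eq_mul] at h24
  linarith

theorem pg_hor {L : Type} [Field L] [Algebra ℂ L] [Algebra L F] [IsScalarTower ℂ L F]
    (hL : Rul.PG ℂ L n) (b : Basis (Fin (n + 1)) F Ω[F⁄ℂ]) (hV : Dvs V)
    (h : ∀ c : L, algebraMap L F c ∈ V.1) : Rul.PG ℂ (Rf V) n := by
  have := Geo.essFT_Rf hV
  have h1 := Geo.dim_Rf' hV
  rw [Geo.dim_basis b, Nat.add_right_cancel_iff] at h1
  obtain ⟨b'⟩ := End95.nonempty_bs h1.symm
  refine End95.PG.up hL ⟨(plV V).φ.comp ((algebraMap L F).codRestrict V.1 h), fun c => ?_⟩ b'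
  refine Eq.trans ?_ (lnr_plV V c)
  rw [IsScalarTower.algebraMap_apply ℂ L F]
  exact ((plV V).r_eq (h _)).symm

/-- a class with positive discrepancy along `E` is anti-ample over `Y` -/
theorem exists_anti {b : Basis (Fin n) F Ω[F⁄ℂ]} {Z Y : TM b} {E : RZ ℂ F} (hx : Ext Z Y E)
    (hG : Car Z.H G)
    (h1 : ∀ (W : PModel ℂ F) U, Prm (oP W) U → Prm Y.H U → od U G = s * od U (kP W b))
    (h2 : ∀ W : PModel ℂ F, Prm (oP W) E → s * od E (kP W b) < od E G) :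
    ∃ l q : ℕ, 0 < q ∧ (l • Y.H - q • G - Z.H).Free := by
  have hE : Prm Z.H E := (hx.prm E).2 (Or.inr rfl)
  have hc : ∀ {a}, Car Y.H a → Car Z.H a := fun h => hx.car.trans Z.mod.free h
  have hq : ∀ {a a'}, Car Z.H a → Car Z.H a' → (∀ U, Prm Y.H U → od U a = od U a') →
      od E a = od E a' → a = a' := fun h h' h3 h4 => Geo.eq_of_od Z.mod h h' fun U hU =>
    ((hx.prm U).1 hU).elim (h3 U) fun h5 => h5 ▸ h4
  obtain ⟨W, hW⟩ := exists_smooth (H := Z.H)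
  obtain ⟨m, hm, a, h3, h4⟩ := Y.qf Z.H
  have h5 := (car_self Z.mod.free).nsmul m
  have h6 : m • Z.H ≤ a := h3.le_of_nef Y.mod (Z.mod.free.nsmul m).nef h4.ge
  obtain ⟨c, h7⟩ := Int.eq_ofNat_of_zero_le (Geo.od_nonneg (V := E) (sub_nonneg.2 h6))
  have h8 : 0 < c := Nat.pos_of_ne_zero fun h0 => by
    rw [h0, map_sub, Nat.cast_zero, sub_eq_zero] at h7
    rw [hq (hc h3) h5 (Geo.eqOn_iff.1 h4) h7] at h3
    exact hx.nE (h3.prm ((prm_nsmul Z.mod.free hm).2 hE))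
  have h9 : 0 < od E (Y.r • G - s • Y.κ) := by
    have h9 := Sub4.od_κ_lt Y (hW E hE) hx.nE
    have h10 := h2 W (hW E hE)
    have h11 : (0 : ℤ) < Y.r := by exact_mod_cast Y.r_pos
    rw [map_sub, map_nsmul, map_nsmul, nsmul_eq_mul, nsmul_eq_mul]
    nlinarith [mul_le_mul_of_nonneg_left h9.le (Int.natCast_nonneg s)]
  obtain ⟨p, h10⟩ := Int.eq_ofNat_of_zero_le h9.le
  have h11 : c • (Y.r • G - s • Y.κ) = p • (a - m • Z.H) :=
    hq (((hG.nsmul _).sub ((hc Y.car).nsmul _)).nsmul c) (((hc h3).sub h5).nsmul p)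
      (fun U hU => by
        have h11 := hW U (hx.car.prm hU)
        simp only [map_nsmul, map_sub _ a, Geo.eqOn_iff.1 h4 U hU, sub_self, map_sub,
          h1 W U h11 hU, Sub4.od_κ_eq Y h11 hU, nsmul_eq_mul]
        ring)
      (by rw [map_nsmul, map_nsmul, h10, h7, nsmul_eq_mul, nsmul_eq_mul, mul_comm])
  obtain ⟨l, -, h12⟩ := (Y.car.nsmul (c * s)).add (h3.nsmul p)
  obtain ⟨j, hj⟩ : ∃ j, p * m = j + 1 :=
    Nat.exists_eq_succ_of_ne_zero (mul_pos (by omega) hm).ne'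
  refine ⟨l, c * Y.r, mul_pos h8 Y.r_pos, ?_⟩
  convert h12.add (Z.mod.free.nsmul j) using 1
  rw [smul_sub, smul_sub, ← mul_smul, ← mul_smul, ← mul_smul, hj, sub_eq_iff_eq_add] at h11
  rw [h11]
  module

/-- **Lemma A** -/
theorem lemA : Reg.LemAStmt := by
  intro K _ _ _ b Z Y E L t ε m hx hL ht hc hd hm hε h0 hE
  have h1 : Prm Z.H E := (hx.prm E).2 (Or.inr rfl)
  have := Geo.essFT_Rf h1.dvs
  have : CharZero L := charZero_of_injective_algebraMap (algebraMap ℂ L).injective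
  have h2 := Geo.dim_Rf' h1.dvs
  rw [Geo.dim_basis b] at h2
  obtain ⟨b'⟩ := End95.nonempty_bs (show dim ℂ (Rf E) = 2 + 1 by omega)
  have hG : Car Z.H (m • Z.κ + Z.r • ε) := (Z.car.nsmul m).add (hε.nsmul _)
  have h3 : ∀ (W : PModel ℂ K) U, Prm (oP W) U → Prm Y.H U →
      od U (m • Z.κ + Z.r • ε) = (m * Z.r : ℕ) * od U (kP W b) := fun W U h3 h4 => by
    simp only [map_add, map_nsmul, nsmul_eq_mul, Sub4.od_κ_eq Z h3 (hx.car.prm h4), h0 U h4]
    push_cast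
    ring
  have h4 : ∀ W : PModel ℂ K, Prm (oP W) E →
      od E (m • Z.κ + Z.r • ε) = (m * Z.r : ℕ) * (od E (kP W b) + 1) := fun W h4 => by
    simp only [map_add, map_nsmul, nsmul_eq_mul, Sub4.od_κ_eq Z h4 h1, hE]
    push_cast
    ring
  have hs : 0 < m * Z.r := mul_pos hm Z.r_pos
  obtain ⟨l, q, hq, h5⟩ := exists_anti hx hG h3 fun W h5 => by
    rw [h4 W h5]
    exact mul_lt_mul_of_pos_left (lt_add_one _) (by exact_mod_cast hs)
  obtain ⟨G', h6, h7⟩ := dif Z.mod hG h1 b' (fun W U h6 h7 h8 =>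
    (h3 W U h6 (((hx.prm U).1 h7).resolve_right h8)).ge) h4
  have h8 := Sub4.isMod_rs Z.mod h1
  have h9 := Pl.free_rs (p := plV E) Y.mod.free
  have h10 : cf ((plV E).rs Y.H) ≤ L := fun y hy => by
    have h10 : y ∈ algebraicClosure L (Rf E) := mem_algebraicClosure_iff.2
      (isAlg_mono hc (End95.mem_cl.1 (End95.cen_le_cl Y.mod.free E hy)))
    rw [Loc.closed_of_cst (Loc.cst_rat ht.tr ht.gen), mem_bot] at h10
    obtain ⟨z, rfl⟩ := h10
    exact z.2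
  obtain ⟨h₀, -, h11⟩ := Loc.exists_pb_of_le h9 ((Loc.sf_le_cf _).trans h10)
  obtain ⟨x, h12⟩ : ∃ x : L, algebraMap L (Rf E) x ∉ cf ((plV E).rs Y.H) := by
    by_contra hn
    push Not at hn
    have h12 := dim_le (inclusion (show L ≤ cf ((plV E).rs Y.H) from fun y hy => hn ⟨y, hy⟩))
    rw [End95.dim_ctr Y.mod.free h1.dvs] at hd
    rw [End95.PG2.dim hL] at h12
    exact hd.not_ge h12
  have h13 := End95.PG2.pg hL
  obtain ⟨Q, c, hQ⟩ := hL
  have h14 := core c b' ht.tr ht.gen hQ h8 h9 (Sub4.car_rs _ hx.car) h11 h12 hs hq (l := l)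
    (G := G') (Lin.free ((Sub4.lin_sub (Sub4.lin_sub (Fam.lin_rs_nsmul _ l _).symm
      ((h6.nsmul q).trans (Fam.lin_rs_nsmul _ q _).symm)) Lin.rfl).trans
        ((Fam.lin_rs_sub _ _ _).trans (Sub4.lin_sub (Fam.lin_rs_sub _ _ _) Lin.rfl)).symm)
      (Pl.free_rs h5)) h7
    fun W V h14 h15 h16 => gr h8 ((Sub4.car_rs _ hG).of_lin h6) h7 h15
      (pg_hor h13 b' h14.dvs h16) h14
  rw [End95.fdg_eq, (((Fam.lin_rs_neg _ _).trans h6.symm.neg).up L).bnum_eq]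
  exact_mod_cast h14

end Crest.Agent.X262.Rl57
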