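import Crest.Agent.X262.Rl57.SubF
import Crest.Agent.X262.Rl57.LemB
import Crest.Agent.X262.Sub4.Num
import Crest.Agent.X262.Top.T3a
import Crest.Agent.X262.Gfm18.Mfs

/-!
# Row 262, SUB (helper57), part 2: `subStmt : Bnd.SubStmt`
-/

set_option autoImplicit false
set_option linter.unusedSectionVars false

open IntermediateField Module
open scoped KaehlerDifferential

namespace Crest.Agent.X262.Rl57

open Crest.Agent.X277 Crest.Agent.X277.BD Crest.Agent.X277.Pst Crest.Agent.X277.Lef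
open Crest.Agent.X277.BD.Br (On oP kP)
open Crest.Agent.X277.BD.Cyc (Rf plV)
open Crest.Agent.X262.Geo (od dv dg)
open Crest.Agent.X262.Mod Crest.Agent.X262.Sark Crest.Agent.X262.Bnd
open Crest.Agent.X262.Loc (cf cen dlV)
open List (replicate)

section Rng

variable {S R : Type} [Field S] [Field R] [Algebra ℂ S] [Algebra ℂ R] [Algebra S R]
  [IsScalarTower ℂ S R] [Algebra.EssFiniteType ℂ R] [Algebra.EssFiniteType S R] [CharZero S]

theorem rng_facts : (∀ y : BD ℂ R,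
    bnum [up S y] = bnum [up (IsScalarTower.toAlgHom ℂ S R).fieldRange y]) ∧
      ∀ x : R, IsAlgebraic (IsScalarTower.toAlgHom ℂ S R).fieldRange x → IsAlgebraic S x := by
  let e := (IsScalarTower.toAlgHom ℂ S R).equivFieldRange
  let := e.toRingEquiv.toRingHom.toAlgebra
  have : IsScalarTower S (IsScalarTower.toAlgHom ℂ S R).fieldRange R :=
    .of_algebraMap_eq fun _ => rfl
  let e' := AlgEquiv.ofBijective (Algebra.ofId S _) e.bijective
  have := Module.Finite.equiv e'.toLinearEquiv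
  refine ⟨fun y => ?_, fun x hx => hx.restrictScalars S⟩
  rw [Loc.bnum_up_fin (K := (IsScalarTower.toAlgHom ℂ S R).fieldRange) [up S y],
    ← e'.toLinearEquiv.finrank_eq, finrank_self, Nat.cast_one, one_mul, List.map_singleton, up_up]

end Rng

variable {K : Type} [Field K] [Algebra ℂ K] [Algebra.EssFiniteType ℂ K] {n d : ℕ} {b : Bs n K}
  {H B : BD ℂ K} {E V : RZ ℂ K} {W : PModel ℂ K}

/-- divisibility of a restricted divisor -/
theorem dvd_res (hH : IsMod H) (hE : Prm H E) (hE' : Prm (oP W) E) (hd : dim ℂ K = d + 2)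
    (hB : B ∈ On W) (h0 : od E B = 0) {r : ℤ} (h : ∀ U, Prm (oP W) U → E ≠ U →
      0 < dg E (dv W U :: replicate d H) → r ∣ od U B) {w : RZ ℂ (Rf E)}
    (hw : Prm ((plV E).rs H) w) : r ∣ od w ((plV E).res B) := by
  have := Geo.essFT_Rf hE.dvs
  rw [Geo.eq_sum_sp hB]
  refine (Finset.sum_induction _ (fun x : BD ℂ K => x.val (plV E).V = 1 ∧ r ∣ od w ((plV E).res x))
    (fun x y h1 h2 => ⟨by rw [val_add, h1.1, h2.1, mul_one], ?_⟩) ⟨rfl, by simp⟩
    fun U hU => ?_).2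
  · rw [Pl.res_add h1.1 h2.1, map_add]
    exact h1.2.add h2.2
  obtain ⟨h1, h2⟩ := Geo.mem_sp.1 hU
  have h3 : E ≠ U := fun h3 => h2 (h3 ▸ h0)
  have h4 : (dv W U).val (plV E).V = 1 := Geo.val_dv_ne hE' h3
  refine ⟨by rw [val_zsmul, h4, one_zpow], ?_⟩
  rw [Pl.res_zsmul h4, map_zsmul, smul_eq_mul]
  by_cases h5 : Gz (oP W) ((plV E).cm w) U
  · exact (h U h1 h3 (Sub4.dg_pos_of_gz hH hE hE' h1 h3 hd hw h5)).mul_right _
  · have h6 := (Pl.val_res_le_iff (b := 0) (W := w) h4 rfl).2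
      (not_lt.1 ((Geo.one_lt_val_dv h1).not.2 h5))
    rw [Pl.res_zero, ← Geo.od_le_iff hw.dvs, map_zero] at h6
    rw [h6.antisymm (Geo.od_nonneg (Pl.res_nonneg h4 (Geo.dv_nonneg U))), mul_zero]
    exact dvd_zero _

theorem od_sc (T : TM b) {c s : ℕ} (h : c * T.r = s) (hV : Prm (oP W) V) (h1 : Prm T.H V) :
    od V (c • T.κ) = s * od V (kP W b) := by
  rw [map_nsmul, Sub4.od_κ_eq T hV h1, nsmul_eq_mul, ← h, Nat.cast_mul, mul_assoc]

theorem exists_scale (Y : MFS b) (Z U : TM b) (hn : RSa Y.A (-U.κ)) : ∃ q l u z : ℕ, 0 < q ∧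
    u * U.r = q * Y.r ∧ z * Z.r = q * Y.r ∧ (l • Y.A - q • Y.κ - Y.H).Free ∧
      (l • Y.A - u • U.κ).Free := by
  obtain ⟨q, l, hq, h1⟩ := Y.anti
  obtain ⟨r, c, hr, h2⟩ := hn
  obtain ⟨j, hj⟩ : ∃ j, r * U.r * Z.r = j + 1 :=
    Nat.exists_eq_succ_of_ne_zero (mul_pos (mul_pos hr U.r_pos) Z.r_pos).ne'
  refine ⟨q * (j + 1), (j + 1) * l + q * Z.r * Y.r * c, q * Z.r * Y.r * r, q * r * U.r * Y.r,
    by positivity, by rw [← hj]; ring, by rw [← hj]; ring, ?_, ?_⟩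
  · convert ((h1.nsmul (j + 1)).add (Y.mod.free.nsmul j)).add
      (Y.A_free.nsmul (q * Z.r * Y.r * c)) using 1
    module
  · convert (h2.nsmul (q * Z.r * Y.r)).add (Y.A_free.nsmul ((j + 1) * l)) using 1
    module

/-- the two numbers of the extraction -/
theorem nums {b : Bs 4 K} {Z Y U : TM b} (hx : Ext Z Y E) (hp : SameP Z.H U.H) (hS : Srf Y.H E)
    (hW : Z.H ∈ On W) (hU : U.κ ∈ On W) : od E (Y.r • Z.κ - Z.r • Y.κ) = (Z.r * Y.r : ℕ) ∧
      fdg E (cen Y.H E) U.κ = -(U.r : ℤ) := by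
  have hE := (Sub4.prm_E hx).dvs
  have := Geo.essFT_Rf hE
  have hd : dim ℂ K = 2 + 2 := Geo.dim_basis b
  have h1 : dim ℂ (cen Y.H E) = 2 := End95.dim_ctr Y.mod.free hE ▸ End95.PG2.dim hS
  obtain ⟨h2, h3, -⟩ := Sub4.extr (Z := Sub4.sc Z Y.r Y.r_pos) (Y := Sub4.sc Y Z.r Z.r_pos)
    (fun P H h1 h2 => Geo.adjAt b h1 h2 hd) hd ⟨hx.car, hx.nE, hx.prm⟩ (mul_comm _ _) hW h1 hp hU
    fun V h2 h3 h4 h5 h6 => by
      have := Geo.essFT_Rf h2.dvs
      have h7 := RC14.rcStmt K b U V _ h2.dvs (fun h => h3 ((hp V).2 h))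
        (DivB.srf_congr End95.pgStmt hE h2.dvs (le_antisymm h5.loc_le h6.loc_le) hS)
      have h8 : cen U.H V ≤ cen Y.H V := fun y hy => Loc.cf_cl (isAlg_mono
        (fun x hx => (End95.cl_eq_cen Y.mod.free V).le (End95.mem_cl.2 (h7 x hx)))
        (End95.mem_cl.1 (End95.cen_le_cl U.mod.free V hy)))
      exact (Loc.dg_cen_one Y.mod.free h4 _).trans (by
        rw [(Sub4.lin_up_rs U.mod.free U.car h8).bnum_eq, bnum_zero, mul_zero])
  refine ⟨h2, mul_left_cancel₀ (Loc.dlV_pos Y.mod.free hE).ne' ?_⟩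
  rw [End95.fdg_eq, ← Loc.dg_cen_one Y.mod.free h1]
  exact h3.trans (by change -(_ * dlV Y.H E) = _; ring)

theorem sub_main {b : Bs 4 K} {Z U : TM b} {Y : MFS b} (hx : Ext Z Y.toTM E) (hp : SameP Z.H U.H)
    (hn : RSa Y.A (-U.κ)) (hS : Srf Y.H E) {F : Type} [Field F] [Algebra ℂ F]
    [Algebra.EssFiniteType ℂ F] [Algebra F (Rf E)] [IsScalarTower ℂ F (Rf E)] {δ : ℕ}
    (k : Top.K3 F δ) {t : Rf E} (ht : Rul.IsRat F t)
    (hc : ctr Y.H E ≤ (IsScalarTower.toAlgHom ℂ F (Rf E)).fieldRange) :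
    Nonempty (SubD Y E k (IsScalarTower.toAlgHom ℂ F (Rf E))) := by
  classical
  have hE := Sub4.prm_E hx
  have := Geo.essFT_Rf hE.dvs
  have : Algebra.EssFiniteType F (Rf E) := .of_comp ℂ F _
  have : CharZero F := charZero_of_injective_algebraMap (algebraMap ℂ F).injective
  set α := IsScalarTower.toAlgHom ℂ F (Rf E) with hα
  have hd : dim ℂ K = 2 + 2 := Geo.dim_basis b
  have hF : dim ℂ F = 2 := Geo.dim_basis k.b
  have h1 : dim ℂ (cen Y.H E) = 2 := End95.dim_ctr Y.mod.free hE.dvs ▸ End95.PG2.dim hS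
  have h2 : cen Y.H E ≤ α.fieldRange := fun y hy => mem_of_alg ht.tr ht.gen (rng_facts.2 y
    (isAlg_mono hc (End95.mem_cl.1 (End95.cen_le_cl Y.mod.free E hy))))
  have h3 : α.fieldRange = cen Y.H E := Top.eq_of_dim (fun _ => Loc.cf_cl) h2
    ((dim_le α.equivFieldRange.symm.toAlgHom).trans (hF.trans h1.symm).le)
  obtain ⟨W, hW⟩ := Unf.exists_on {Z.H, U.κ}
  have hZ := hW Z.H (by simp)
  have hW' : ∀ V, Prm Z.H V → Prm (oP W) V := fun V => (Geo.car_of_On hZ).prm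
  obtain ⟨h4, h5⟩ := nums hx hp hS hZ (hW _ (by simp))
  rw [← h3, End95.fdg_eq] at h5
  have hcZ : ∀ {x}, Car Y.H x → Car Z.H x := fun h => hx.car.trans Z.mod.free h
  have h6 : ∀ W' : PModel ℂ K, Prm (oP W') E → od E Y.κ = Y.r * (od E (kP W' b) - 1) :=
    fun W' h => mul_left_cancel₀ (Nat.cast_ne_zero.2 Z.r_pos.ne' : (Z.r : ℤ) ≠ 0) (by
      simp only [map_sub, map_nsmul, nsmul_eq_mul, Sub4.od_κ_eq Z h hE, Nat.cast_mul] at h4
      linarith)
  obtain ⟨q, l, u, z, hq, hu, hz, hN, hM⟩ := exists_scale Y Z U hn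
  have hs : 0 < q * Y.r := mul_pos hq Y.r_pos
  have hN1 := Gfm.isMod_anti Y hN
  have hN2 := Gfm.car_anti Y q l
  have hN3 := Gfm.car_anti' Y hN
  have h7 : EqOn Y.H (l • Y.A - u • U.κ) (l • Y.A - q • Y.κ) := Geo.eqOn_iff.2 fun V hV => by
    have h7 := hx.car.prm hV
    rw [map_sub, map_sub, od_sc U hu (hW' V h7) ((hp V).1 h7), od_sc Y.toTM rfl (hW' V h7) hV]
  have h8 : bnum [up α.fieldRange ((plV E).rs (l • Y.A - u • U.κ))] = (q * Y.r : ℕ) := by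
    rw [(((Fam.lin_rs_sub _ _ _).trans (Sub4.lin_sub Lin.rfl (Fam.lin_rs_nsmul _ _ _))).up
      _).bnum_eq, map_sub, map_nsmul, bnum_sub, bnum_nsmul, h5,
      (Sub4.lin_up_rs Y.mod.free (Y.A_car.nsmul l) h2).bnum_eq, bnum_zero, ← hu]
    push_cast
    ring
  obtain ⟨a, ha, ha'⟩ := Sub4.exists_pb_hom α (Pl.free_rs (p := plV E) hN1.free)
    ((Sub4.cen_le Y.mod.free hN2 E).trans h2)
  obtain ⟨p, hp1, hp2⟩ := Sub4.exists_pb_hom α (Pl.free_rs (p := plV E) (Y.A_free.nsmul l))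
    ((Sub4.cen_le Y.mod.free (Y.A_car.nsmul l) E).trans h2)
  have h9 : Big a := by
    have h9 := Loc.dg_pos_cen Z.mod hE hN1.free hd ((le_antisymm (Sub4.cen_le Y.mod.free hN2 E)
      (Sub4.cen_le hN1.free hN3 E)).symm ▸ h1)
    rw [Geo.dg_eq, List.map_cons, List.map_replicate, ← List.singleton_append, Loc.bnum_rep_lin ha',
      ← List.map_replicate, Loc.bnum_prj _ (by simp [hF])] at h9
    rw [ha.nef.big_iff, hF]
    exact (bnum_nonneg (all_rp ha.nef 2)).lt_of_ne fun h0 => by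
      rw [← h0, zero_mul] at h9
      exact h9.false
  have ha1 : IsMod a := isMod_iff.2 ⟨ha, h9⟩
  have h10 : Car a p := by
    obtain ⟨c, -, h10⟩ := hN3.trans hN1.free (Y.A_car.nsmul l)
    refine car_of_free ha hp1 (n := c) ((Br.free_pb_iff (α := α) fun g hg => mem_of_alg ht.tr ht.gen
      (rng_facts.2 g (IsIntegral.isAlgebraic (R := α.fieldRange) hg))).1 ?_)
    rw [map_sub, map_nsmul]
    exact Lin.free ((Sub4.lin_sub ((ha'.symm.nsmul c).trans (Fam.lin_rs_nsmul _ _ _).symm)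
      hp2.symm).trans (Fam.lin_rs_sub _ _ _).symm) (Pl.free_rs h10)
  have h11 := Geo.dim_Rf' hE.dvs
  obtain ⟨b'⟩ := End95.nonempty_bs (show dim ℂ (Rf E) = 2 + 1 by omega)
  obtain ⟨G, h12, h13⟩ := dif (b := b) (s := q * Y.r) (G := 2 • z • Z.κ - q • Y.κ) Z.mod
    (((Z.car.nsmul z).nsmul 2).sub (hcZ (Y.car.nsmul q))) hE b'
    (fun W' V h12 h13 h14 => by
      rw [map_sub, map_nsmul, od_sc Z hz h12 h13,
        od_sc Y.toTM rfl h12 (((hx.prm V).1 h13).resolve_right h14), nsmul_eq_mul]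
      push_cast
      linarith)
    fun W' h12 => by
      rw [map_sub, map_nsmul, od_sc Z hz h12 hE, map_nsmul, h6 W' h12, nsmul_eq_mul, nsmul_eq_mul]
      push_cast
      ring
  have h14 : ∀ V, Prm Z.H V → od V (u • U.κ) = od V (z • Z.κ) := fun V hV => by
    rw [od_sc U hu (hW' V hV) ((hp V).1 hV), od_sc Z hz (hW' V hV) hV]
  have h15 : 0 ≤ u • U.κ - z • Z.κ := sub_nonneg.2 ((sub_le_sub_iff_left (l • Y.A)).1
    (((hcZ (Y.A_car.nsmul l)).sub (Z.car.nsmul z)).le_of_free Z.mod hM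
      (Geo.leOn_iff.2 fun V hV => by rw [map_sub, map_sub, h14 V hV])))
  have h16 : (u • U.κ - z • Z.κ).val (plV E).V = 1 :=
    (Geo.od_eq_zero hE.dvs).1 (by rw [map_sub, h14 E hE, sub_self])
  have h17 : Lin (G + 2 • (plV E).res (u • U.κ - z • Z.κ) + 2 • (plV E).rs (l • Y.A - u • U.κ))
      (pb α (a + p)) := by
    rw [map_add]
    refine (((h12.add (((Pl.lin_rs_res h16).symm.nsmul 2).trans (Fam.lin_rs_nsmul _ _ _).symm)).trans
      (Pl.lin_rs_add _ _).symm).add (Fam.lin_rs_nsmul _ _ _).symm).trans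
        ((Pl.lin_rs_add _ _).symm.trans (Lin.trans ?_ (ha'.add hp2)))
    convert Pl.lin_rs_add (p := plV E) (l • Y.A - q • Y.κ) (l • Y.A) using 2
    module
  have h18 : bnum [up F (2 • (plV E).rs (l • Y.A - u • U.κ))] = 2 * (q * Y.r : ℕ) := by
    rw [map_nsmul, bnum_nsmul, rng_facts.1, h8, Nat.cast_two]
  have h19 : Sub14.Th b' ((plV E).rs Z.H) (G + 2 • (plV E).res (u • U.κ - z • Z.κ)) (q * Y.r) :=
    fun Q w h19 h20 => (h13 Q w h19 h20).trans
      (Geo.od_mono (le_add_of_nonneg_right (nsmul_nonneg (Pl.res_nonneg h16 h15) 2)))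
  have h20 := Sub4.isMod_rs Z.mod hE
  have h21 := (Sub4.car_rs (plV E) (hcZ hN2)).of_lin ha'.symm
  have h22 := (Pl.free_rs (p := plV E) hM).nsmul 2
  refine ⟨⟨q, l, l • Y.A - u • U.κ, a, p, hq, hN, hM, hN2.le_of_free Y.mod hM h7.le, h7, ?_,
    (End95.fdg_eq _ _).trans h8, ha, h9, hp1, ha', hp2, fun Q c D h23 h24 h25 =>
      fib1 ht.tr ht.gen b' hs h20 ha1 h21 h22 h17 h18 h19 Q c h23 h24 h25, ?_⟩⟩
  · rw [sub_sub_sub_cancel_left, map_sub, od_sc U hu (hW' E hE) ((hp E).1 hE), map_nsmul,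
      h6 W (hW' E hE), nsmul_eq_mul]
    push_cast
    ring
  have h23 : od E (Y.κ - Y.r • pr ℂ ((kP W b - dv W E).gen E)) = 0 := by
    rw [map_sub, map_nsmul, (Geo.od_eq_iff hE.dvs).2 ((val_pr (gen_ne _ _) E).trans (v_gen _ _)),
      map_sub, Geo.od_dv_self (hW' E hE), h6 W (hW' E hE), nsmul_eq_mul, sub_self]
  refine fib2 ht.tr ht.gen b' hs h20 ha1 h21 h22 h17 h18 h19 k h10
    (B := q • (plV E).res (Y.κ - Y.r • pr ℂ ((kP W b - dv W E).gen E))) ?_ fun w hw => ?_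
  · rw [← pr_pow (gen_ne _ _), map_sub]
    refine ((Pl.lin_rs (p := plV E) ?_).symm.nsmul q).trans ((Fam.lin_rs_nsmul _ _ _).symm.trans
      (Lin.trans ?_ (Sub4.lin_sub hp2 ha')))
    · rw [← pr_pow (gen_ne _ _), map_sub, sub_eq_zero, Geo.od_eq_iff hE.dvs,
        val_pr (pow_ne_zero _ (gen_ne _ _))] at h23
      exact h23.symm
    · convert Fam.lin_rs_sub (plV E) (l • Y.A) (l • Y.A - q • Y.κ) using 2
      abel
  · rw [map_nsmul, nsmul_eq_mul, Nat.cast_mul]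
    refine mul_dvd_mul_left _ (dvd_res Z.mod hE (hW' E hE) hd
      (sub_mem (Sub4.on_of hZ (hcZ Y.car)) (nsmul_mem (Br.pr_mem _) _)) h23
      (fun V h24 h25 h26 => ?_) hw)
    have h27 := (Sub4.dif_int (Z := Sub4.sc Z Y.r Y.r_pos) (Y := Sub4.sc Y.toTM Z.r Z.r_pos)
      (fun P H h1 h2 => Geo.adjAt b h1 h2 hd) hd ⟨hx.car, hx.nE, hx.prm⟩ (mul_comm _ _) hZ h4 h24
      h25.symm h26).2
    change ((Y.r * Z.r : ℕ) : ℤ) ∣ od V (Z.r • Y.κ) at h27
    rw [map_nsmul, nsmul_eq_mul, Nat.cast_mul, mul_comm,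
      mul_dvd_mul_iff_left (Nat.cast_ne_zero.2 Z.r_pos.ne')] at h27
    rw [map_sub, map_nsmul, nsmul_eq_mul]
    exact h27.sub (dvd_mul_right _ _)

/-- **SUB** -/
theorem subStmt : SubStmt := by
  intro K _ _ _ b A Z d F _ _ _ δ k e _ hS
  have hx := ext_of d
  have hp := Top.flips d.flips
  have hn : RSa d.Y.A (-d.Zc.κ) := d.hA.symm ▸ d.nef
  let := (al e).toRingHom.toAlgebra
  have : IsScalarTower ℂ F (Rf d.E) := .of_algebraMap_eq fun c => ((al e).commutes c).symm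
  refine sub_main hx hp hn hS k (Rul.isRat_X.map
    (AlgEquiv.ofRingEquiv (f := e.symm.toRingEquiv) fun _ => rfl)) fun x h => ?_
  obtain ⟨c, hc⟩ := End95.rulStmt _ F (e.toAlgHom.comp (ctr d.Y.H d.E).val) hS ⟨x, h⟩
  exact ⟨c, e.symm_apply_eq.2 hc⟩

end Crest.Agent.X262.Rl57
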