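import Crest.Agent.X262.Rl57.Jac
import Crest.Agent.X262.Loc95.Kv
import Crest.Agent.X262.Sark27.Term

/-!
# Row 262, RL (helper57), part 3: the ruled lemma for b-divisors

`k ≤ L ≤ F = L(t)`, `G + D ∼ pb A`, `D` free, the horizontal coefficients of `G / N - K` lie in
`[0, 1]`.  Then a multiple of `A` has a member `R A - pr φ` which satisfies the lower bound of the
canonical bundle formula at every divisorial valuation.

* `exists_ram`, `od_pb` : ramification of a vertical divisorial valuation;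
* `rl_kv` : model free, any ground field of characteristic zero;
* `rl` : on smooth models over `ℂ`.
-/

set_option autoImplicit false
set_option linter.unusedSectionVars false

open WithZero IntermediateField Module
open scoped KaehlerDifferential

namespace Crest.Agent.X262.Rl57

open Crest.Agent.X277 Crest.Agent.X277.BD Crest.Agent.X277.Pst Crest.Agent.X277.Jet
open Crest.Agent.X277.Neg (nv nv_triv IsNv isNv_nv)
open Crest.Agent.X262.Wr72 (Kv jb)
open Crest.Agent.X262.Geo (od)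
open Crest.Agent.X262.Loc (Pt rzP ordP kC)

variable {k L F : Type} [Field k] [Field L] [Field F] [Algebra k L] [Algebra k F] [Algebra L F]
  [IsScalarTower k L F] [CharZero k]

/-- a free class has a section which generates at finitely many given valuation rings -/
theorem exists_gen_fin {D : BD k F} (hD : D.Free) {ι : Type*} [Finite ι] (V : ι → RZ k F) :
    ∃ s ∈ D.Sec, s ≠ 0 ∧ ∀ i, (V i).v s = D.val (V i) := by
  let W : Option ι → RZ k F := fun o => o.elim (RZ.top k F) V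
  let p : Option ι → Submodule k D.Sec := fun o =>
    { carrier := {s | (W o).v s < D.val (W o)}
      add_mem' := fun ha hb => (W o).v.map_add_lt ha hb
      zero_mem' := by simpa using D.val_pos _
      smul_mem' := fun c s hs => by
        change (W o).v (c • (s : F)) < _
        rw [Algebra.smul_def, map_mul]
        exact (mul_le_of_le_one_left' (RZ.le_one_iff.2 ((W o).2 c))).trans_lt hs }
  obtain ⟨s, hs⟩ := Submodule.exists_forall_notMem_of_forall_ne_top p fun o h => by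
    obtain ⟨g, h1, h2⟩ := hD.exists_gen (W o)
    have h3 : (⟨g, h1⟩ : D.Sec) ∈ p o := h ▸ Submodule.mem_top
    exact ne_of_lt h3 h2
  have h : ∀ o, (W o).v s = D.val (W o) := fun o => le_antisymm (s.2 _) (not_lt.1 (hs o))
  exact ⟨s, s.2, ne_of_val (h none), fun i => h (some i)⟩

theorem ord_up {v : Valuation F ℤᵐ⁰} (hL : ∀ c : L, v (algebraMap L F c) ≤ 1)
    (hk : ∀ c : k, v (algebraMap k F c) ≤ 1) (a : BD k F) : ord v hL (up L a) = ord v hk a :=
  congrArg log (vl_eq (g := a.gen (rz v hk)) ((v_gen a (rz v hk)).trans (val_up a (rz v hL)).symm))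

/-- the restriction of a valuation ring to `L` -/
abbrev rsL (L : Type) [Field L] [Algebra k L] [Algebra L F] [IsScalarTower k L F] (V : RZ k F) :
    RZ k L := cm _ (alg_ov (IsScalarTower.toAlgHom k L F)) V

variable [Algebra.EssFiniteType k L] [Algebra.EssFiniteType k F]

section Ram

variable {V : RZ k F} {w : RZ k L} {m : ℕ}

theorem ne_zero_of_ram (h : ∀ x : L, nv V (algebraMap L F x) = nv w x ^ m) : m ≠ 0 := by
  rintro rfl
  simpa using h 0

theorem rsL_eq (hV : Dvs V) (hw : Dvs w) (h : ∀ x : L, nv V (algebraMap L F x) = nv w x ^ m) :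
    rsL L V = w := Subtype.ext (ValuationSubring.ext _ _ fun x => by
  rw [← Geo.nv_le_one hw, ← pow_le_one_iff (ne_zero_of_ram h), ← h, Geo.nv_le_one hV]
  rfl)

theorem od_pb (hV : Dvs V) (hw : Dvs w) (h : ∀ x : L, nv V (algebraMap L F x) = nv w x ^ m)
    (a : BD k L) : od V (pb (IsScalarTower.toAlgHom k L F) a) = m * od w a := by
  have h1 := val_mp_gen (j := _) (h := alg_ov (IsScalarTower.toAlgHom k L F)) a V
  rw [show cm _ _ V = w from rsL_eq hV hw h] at h1
  rw [pb, Geo.od_of_gen hV h1.symm, Geo.od_of_gen hw (v_gen a w), ← nsmul_eq_mul, ← log_pow, ← h]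
  rfl

/-- a vertical divisorial valuation lies over a divisorial valuation -/
theorem exists_ram (hV : Dvs V) (h : ¬ ∀ c : L, algebraMap L F c ∈ V.1) :
    Dvs (rsL L V) ∧ ∃ m : ℕ, 0 < m ∧ ∀ x : L, nv V (algebraMap L F x) = nv (rsL L V) x ^ m := by
  have hw : Dvs (rsL L V) :=
    (R276.DivVal_858.restrict_of_ne_top trdeg_eq_dim trdeg_eq_dim hV fun h0 => h fun c => by
      have h1 : c ∈ V.1.comap (algebraMap L F) := h0 ▸ ValuationSubring.mem_top _
      exact h1).2.2.1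
  obtain ⟨π, hπ⟩ := Geo.nv_unif hw
  have h0 := ne_of_unif hπ
  have h1 : nv V (algebraMap L F π) < 1 := by
    rw [Geo.nv_lt_one hV, ← map_one V.v, ← map_one (algebraMap L F)]
    refine (v_cm_lt_iff _ (alg_ov (IsScalarTower.toAlgHom k L F))).1 ?_
    rw [map_one, ← Geo.nv_lt_one hw, hπ, ← exp_zero, exp_lt_exp]
    norm_num
  obtain ⟨e, he⟩ : ∃ e : ℤ, nv V (algebraMap L F π) = exp e :=
    ⟨_, (exp_log (by simpa using h0)).symm⟩
  rw [he, ← exp_zero, exp_lt_exp] at h1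
  obtain ⟨m, rfl⟩ : ∃ m : ℕ, e = -m := ⟨(-e).toNat, by omega⟩
  refine ⟨hw, m, by omega, fun x => ?_⟩
  rcases eq_or_ne x 0 with rfl | hx
  · rw [map_zero, map_zero, map_zero, zero_pow (by omega)]
  obtain ⟨a, ha⟩ : ∃ a : ℤ, nv (rsL L V) x = exp a := ⟨_, (exp_log (by simpa using hx)).symm⟩
  have h2 : nv V (algebraMap L F x) = nv V (algebraMap L F (π ^ (-a))) := by
    rw [Geo.nv_eq_iff hV]
    refine (v_cm_eq_iff _ (alg_ov (IsScalarTower.toAlgHom k L F))).1 ?_
    rw [← Geo.nv_eq_iff hw, map_zpow₀, hπ, ha, ← exp_zsmul]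
    simp
  rw [h2, map_zpow₀, map_zpow₀, he, ha, ← exp_zsmul, ← exp_nsmul]
  simp [mul_comm]

end Ram

variable {n : ℕ}

theorem dim_eq_one (b : Basis (Fin n) L Ω[L⁄k]) (b' : Basis (Fin (n + 1)) F Ω[F⁄k]) :
    dim L F = 1 := by
  have : CharZero L := charZero_of_injective_algebraMap (algebraMap k L).injective
  have : Algebra.EssFiniteType L F := .of_comp k L F
  have h := Loc.dim_tower k L F
  rw [dim, dim, finrank_eq_card_basis b, finrank_eq_card_basis b', Fintype.card_fin,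
    Fintype.card_fin] at h
  omega

/-- sections of multiples of a free class with bounded multiplicities on the generic fibre -/
theorem exists_spread (hd : dim L F = 1) {D : BD k F} (hD : D.Free) {T : Set (Pt L F)}
    (hT : T.Finite) : ∃ e : ℕ, ∀ j : ℕ, ∃ s ∈ (j • D).Sec, s ≠ 0 ∧ ∀ P : Pt L F,
      ordP P (up L (j • D) - pr L s) ≤ e ∧ (P ∈ T → ordP P (up L (j • D) - pr L s) = 0) := by
  have : CharZero L := charZero_of_injective_algebraMap (algebraMap k L).injective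
  have : Algebra.EssFiniteType L F := .of_comp k L F
  refine ⟨(bnum [up L D]).toNat, fun j => ?_⟩
  induction j with
  | zero => exact ⟨1, by simpa using one_mem_Sec, one_ne_zero, fun P => by simp⟩
  | succ j ih =>
    obtain ⟨s, h1, h2, h3⟩ := ih
    have h4 := (hT.union (Loc.finite_ordP hd (up L (j • D) - pr L s))).to_subtype
    obtain ⟨u, h5, h6, h7⟩ := exists_gen_fin hD
      fun P : ↥(T ∪ {P | ordP P (up L (j • D) - pr L s) ≠ 0}) => (rzP P.1).dn k
    have h8 : ∀ P ∈ T ∪ {P | ordP P (up L (j • D) - pr L s) ≠ 0}, ordP P (up L D - pr L u) = 0 :=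
      fun P hP => by
        rw [map_sub, sub_eq_zero, ← exp_inj, Loc.exp_ordP_pr h6, eq_comm, Loc.eq_ordP_iff, val_up]
        exact h7 ⟨P, hP⟩
    have h9 : 0 ≤ up L D - pr L u := sub_nonneg.2 fun V => by
      rw [val_pr h6]
      exact up_mem_Sec h5 V
    refine ⟨s * u, by rw [succ_nsmul]; exact mul_mem_Sec h1 h5, mul_ne_zero h2 h6, fun P => ?_⟩
    have e : ordP P (up L ((j + 1) • D) - pr L (s * u)) =
        ordP P (up L (j • D) - pr L s) + ordP P (up L D - pr L u) := by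
      rw [← map_add, succ_nsmul, map_add, pr_mul h2 h6]
      congr 1
      abel
    rw [e]
    refine ⟨?_, fun hP => by rw [(h3 P).2 hP, h8 P (Or.inl hP), add_zero]⟩
    by_cases hP : ordP P (up L (j • D) - pr L s) = 0
    · have h10 := Loc.ordP_le_deg hd h9 P
      have h11 : (0 : ℤ) ≤ ordP P (up L D - pr L u) := ord_nonneg h9
      have h12 := Loc.degP_pos' hd P
      have h13 : bnum [up L D - pr L u] = bnum [up L D] :=
        Lin.bnum_eq ⟨u⁻¹, inv_ne_zero h6, by rw [pr_inv, sub_eq_add_neg]⟩ []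
      rw [hP, zero_add]
      have h14 := Int.self_le_toNat (bnum [up L D])
      nlinarith
    · rw [h8 P (Or.inr hP), add_zero]
      exact (h3 P).1

/-- **the ruled lemma**, model free -/
theorem rl_kv (b : Basis (Fin n) L Ω[L⁄k]) (b' : Basis (Fin (n + 1)) F Ω[F⁄k]) {t : F}
    (ht : Transcendental L t) (htop : L⟮t⟯ = ⊤) {N : ℕ} (hN : N ≠ 0) {G D : BD k F} {A : BD k L}
    (hD : D.Free) (hl : Lin (G + D) (pb (IsScalarTower.toAlgHom k L F) A))
    (hor : ∀ (V : RZ k F) (κ : ℤ), (∀ c : L, algebraMap L F c ∈ V.1) → V.1 ≠ ⊤ →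
      Kv (nv V) b' (exp κ) → N * κ ≤ od V G ∧ od V G ≤ N * (κ + 1)) :
    ∃ R : ℕ, 0 < R ∧ ∃ φ : L, φ ≠ 0 ∧ ∀ (V : RZ k F) (w : RZ k L) (m : ℕ) (κ κ' : ℤ),
      Dvs V → Dvs w → (∀ x : L, nv V (algebraMap L F x) = nv w x ^ m) →
      Kv (nv V) b' (exp κ) → Kv (nv w) b (exp κ') →
      R * (N * (m - 1) + od V G - N * κ) ≤ m * (od w (R • A - pr k φ) - R * N * κ') := by
  have : CharZero L := charZero_of_injective_algebraMap (algebraMap k L).injective
  have : Algebra.EssFiniteType L F := .of_comp k L F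
  have hd := dim_eq_one b b'
  obtain ⟨Z⟩ : Nonempty (Fr L F (Fin 1)) := hd ▸ exists_fr L F
  obtain ⟨δ, h0, hδ⟩ := exists_rel b b' (Z.reindex (Equiv.ofUnique Unit (Fin 1)))
  obtain ⟨f, hf, hl⟩ := hl
  obtain ⟨e, he⟩ := exists_spread hd hD (Loc.finite_ordP hd (up L G - N • kC δ))
  obtain ⟨s, h1, h2, h3⟩ := he (e + 1)
  have hg : f ^ (e + 1) / s ≠ 0 := div_ne_zero (pow_ne_zero _ hf) h2
  have hpr : pr k (f ^ (e + 1) / s) = (e + 1) • (G - pb (IsScalarTower.toAlgHom k L F) A) +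
      ((e + 1) • D - pr k s) := by
    rw [pr_div (pow_ne_zero _ hf) h2, pr_pow hf, eq_sub_of_add_eq' hl.symm, ← add_sub_assoc,
      ← smul_add]
    congr 2
    abel
  have hs : 0 ≤ (e + 1) • D - pr k s := sub_nonneg.2 fun V => by
    rw [val_pr h2]
    exact h1 V
  obtain ⟨r, hr, φ, hφ, h4⟩ := rl_val b b' ht htop h0 hδ (N := (e + 1) * N) (by positivity) hg
    fun v π hv hπ => by
      have hk : ∀ c : k, v (algebraMap k F c) ≤ 1 := fun c => by
        rw [IsScalarTower.algebraMap_apply k L F]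
        exact hv _
      have h5 := Geo.isNv_rz hv ⟨π, hπ⟩
      obtain ⟨P, hP⟩ := Loc.exists_pt_of_ne hd (Geo.ne_top_of_isNv h5)
      obtain rfl : v = P.v := by rw [← Geo.nv_rz hv ⟨π, hπ⟩, hP, Loc.nv_rzP]
      have h6 := Loc.v_der_unif hd h0 hπ
      have h7 := hor (rz P.v hk) (ordP P (kC δ)) hv (Geo.ne_top_of_isNv h5 :)
        (by rw [Geo.nv_rz hk ⟨π, hπ⟩, ← h6]; exact kv_hor hδ hv hπ)
      rw [Geo.od_rz hk ⟨π, hπ⟩, ← ord_up hv hk] at h7
      have h8 := congrArg (fun a => ordP P (up L a)) hpr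
      simp only [map_add, map_nsmul, map_sub, up_pr, nsmul_eq_mul,
        up_pb (IsScalarTower.toAlgHom k L F) fun _ => rfl, sub_zero] at h8
      have h9 := h3 P
      have h10 : (0 : ℤ) ≤ ordP P (up L ((e + 1) • D - pr k s)) := ord_nonneg (up_nonneg hs)
      simp only [map_nsmul, map_sub, up_pr, nsmul_eq_mul, Set.mem_ofPred_eq] at h9 h10
      change N * ordP P (kC δ) ≤ ordP P (up L G) ∧ ordP P (up L G) ≤ _ at h7
      rw [h6, hπ, ← Loc.exp_ordP_pr hg, h8, ← exp_nsmul, ← exp_nsmul, ← exp_add, exp_le_exp,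
        exp_le_exp]
      simp only [nsmul_eq_mul]
      push_cast at h9 h10 ⊢
      have h11 : (1 : ℤ) ≤ N := by exact_mod_cast Nat.pos_of_ne_zero hN
      have h12 : (0 : ℤ) ≤ e := Int.natCast_nonneg e
      refine ⟨by nlinarith [h7.1], ?_⟩
      by_cases h13 : ordP P (up L G) - N * ordP P (kC δ) = 0
      · rw [sub_eq_zero.1 h13]
        nlinarith [h9.1]
      · rw [h9.2 h13]
        nlinarith [h7.2]
  refine ⟨(e + 1) * r, by positivity, φ, hφ, fun V w m κ κ' hV hw hm hκ hκ' => ?_⟩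
  obtain ⟨π, hπ⟩ := Geo.nv_unif hV
  obtain ⟨ϖ, hϖ⟩ := Geo.nv_unif hw
  have hdv : ∀ {K : Type} [Field K] [Algebra k K] [Algebra.EssFiniteType k K] {d : ℕ}
      (c : Basis (Fin d) K Ω[K⁄k]) {U : RZ k K}, Dvs U →
      R276.FKDefs_779.IsDiv k d (nv U).valuationSubring := fun c U hU => by
    have h5 := congrArg Subtype.val (Geo.rz_nv hU)
    have h6 : Gj.dm k _ = _ := (finrank_eq_card_basis c).trans (Fintype.card_fin _)
    exact h6 ▸ (show (nv U).valuationSubring = U.1 from h5) ▸ hU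
  have h5 := lKv_of_kv (hdv b' hV) hπ hκ
  have h6 := lKv_of_kv (hdv b hw) hϖ hκ'
  have h7 : LKv ((nv V).comap (algebraMap L F)) b ((exp κ' * exp 1) ^ m) := by
    obtain ⟨⟨z, h7, h8, h9⟩, h10⟩ := h6
    simp only [LKv, Valuation.comap_apply, hm, Finset.prod_pow, ← mul_pow]
    exact ⟨⟨z, h7, h8, by rw [h9]⟩, fun z => pow_le_pow_left' (h10 z) m⟩
  have h8 := h4 (nv V) _ _ (nv_triv V) h5 h7
  have h9 := congrArg (od V) hpr
  have h10 := Geo.od_nonneg (V := V) hs
  rw [map_add, map_nsmul, map_sub, od_pb hV hw hm, Geo.od_pr hg, nsmul_eq_mul] at h9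
  rw [hm, ← exp_log (x := nv w φ) (by simpa using hφ), ← Geo.od_pr hφ,
    ← exp_log (x := nv V _) ((nv V).ne_zero_iff.2 hg), h9] at h8
  simp only [← exp_nsmul, ← exp_add, exp_le_exp, nsmul_eq_mul] at h8
  rw [map_sub, map_nsmul, nsmul_eq_mul]
  push_cast at h8 ⊢
  nlinarith [mul_nonneg (Int.natCast_nonneg r) h10]

section Smooth

open Crest.Agent.X277.Lef Crest.Agent.X277.BD.Br

theorem jb_eq {K : Type} [Field K] [Algebra ℂ K] (b : Basis (Fin n) K Ω[K⁄ℂ]) (z : Fin n → K) :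
    jb b z = jac b z := by
  unfold jb jac
  convert rfl

/-- along a prime of a smooth model the canonical divisor has the canonical value -/
theorem kv_kP {K : Type} [Field K] [Algebra ℂ K] [Algebra.EssFiniteType ℂ K]
    (b : Basis (Fin n) K Ω[K⁄ℂ]) {W : PModel ℂ K} {V : RZ ℂ K} (hV : Prm (oP W) V) :
    Kv (nv V) b (exp (od V (kP W b))) := by
  obtain ⟨z, h1, h2⟩ := Sark27.exists_jac W V b
  refine ⟨⟨z, fun i => (Geo.nv_le_one hV.dvs).2 (mem_of_loc (h1 i)), ?_⟩, fun c hc => ?_⟩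
  · rw [jb_eq, Geo.eq_od_iff hV.dvs, h2]
  · rw [jb_eq, Geo.le_od_iff hV.dvs]
    exact Sark27.jac_le_kP b hV fun i => (Geo.nv_le_one hV.dvs).1 (hc i)

/-- **the ruled lemma** -/
theorem rl {L F : Type} [Field L] [Field F] [Algebra ℂ L] [Algebra ℂ F] [Algebra L F]
    [IsScalarTower ℂ L F] [Algebra.EssFiniteType ℂ L] [Algebra.EssFiniteType ℂ F]
    (b : Basis (Fin n) L Ω[L⁄ℂ]) (b' : Basis (Fin (n + 1)) F Ω[F⁄ℂ]) {t : F}
    (ht : Transcendental L t) (htop : L⟮t⟯ = ⊤) {N : ℕ} (hN : N ≠ 0) {G D : BD ℂ F} {A : BD ℂ L}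
    (hD : D.Free) (hl : Lin (G + D) (pb (IsScalarTower.toAlgHom ℂ L F) A))
    (hor : ∀ V : RZ ℂ F, (∀ c : L, algebraMap L F c ∈ V.1) → V.1 ≠ ⊤ → ∃ W : PModel ℂ F,
      Prm (oP W) V ∧ N * od V (kP W b') ≤ od V G ∧ od V G ≤ N * (od V (kP W b') + 1)) :
    ∃ R : ℕ, 0 < R ∧ ∃ φ : L, φ ≠ 0 ∧ ∀ (W : PModel ℂ F) (Q : PModel ℂ L) (V : RZ ℂ F)
      (w : RZ ℂ L) (m : ℕ), Prm (oP W) V → Prm (oP Q) w →
      (∀ x : L, nv V (algebraMap L F x) = nv w x ^ m) →
      R * (N * (m - 1) + od V G - N * od V (kP W b')) ≤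
        m * (od w (R • A - pr ℂ φ) - R * N * od w (kP Q b)) := by
  obtain ⟨R, hR, φ, hφ, h⟩ := rl_kv b b' ht htop hN hD hl fun V κ h1 h2 h3 => by
    obtain ⟨W, h4, h5⟩ := hor V h1 h2
    rwa [← exp_inj.1 ((kv_kP b' h4).unique h3)]
  exact ⟨R, hR, φ, hφ, fun W Q V w m hV hw hm =>
    h V w m _ _ hV.dvs hw.dvs hm (kv_kP b' hV) (kv_kP b hw)⟩

end Smooth

end Crest.Agent.X262.Rl57
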