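import Mathlib

/-!
# Row 262, RL (helper57), part 0: the invariant of a semistable binary form

* `exists_pairs` : a multiset of `2 N` elements with multiplicities `≤ N` is a union of `N` pairs of
  distinct elements;
* `one_le_root`  : if `v(p')^N ≤ S v(p)^N` for all polynomials `p`, then `1 ≤ S v(t - α)^N` for every
  algebraic `α`;
* `exists_inv`   : for `Q` of degree in `[N, 2 N]` with roots of multiplicity `≤ N` there is
  `φ ≠ 0` in the ground field with `v φ ≤ (v(Q(t)) S)^r` for all `v`, `t`, `S` as above.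
-/

set_option autoImplicit false

open Polynomial

namespace Crest.Agent.X262.Rl57

section pairs

variable {α : Type*} [DecidableEq α]

theorem exists_two {s : Multiset α} {N : ℕ} (hc : s.card = 2 * (N + 1))
    (h : ∀ a, s.count a ≤ N + 1) : ∃ a b, a ≠ b ∧ a ∈ s ∧ b ∈ s ∧
      ∀ x, x ≠ a → x ≠ b → s.count x ≤ N := by
  have hne : s.toFinset.Nonempty := by
    obtain ⟨a, ha⟩ := Multiset.card_pos_iff_exists_mem.1 (by omega : 0 < s.card)
    exact ⟨a, Multiset.mem_toFinset.2 ha⟩
  obtain ⟨a, ha, hmax⟩ := s.toFinset.exists_max_image (fun x => s.count x) hne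
  have hne' : (s.toFinset.erase a).Nonempty := by
    by_contra hcon
    rw [Finset.not_nonempty_iff_eq_empty] at hcon
    have h1 := Multiset.toFinset_sum_count_eq s
    rw [← Finset.add_sum_erase _ _ ha, hcon, Finset.sum_empty] at h1
    have := h a
    omega
  obtain ⟨b, hb, hmax'⟩ := (s.toFinset.erase a).exists_max_image (fun x => s.count x) hne'
  have hba := Finset.ne_of_mem_erase hb
  have hb' := Finset.mem_of_mem_erase hb
  refine ⟨a, b, hba.symm, Multiset.mem_toFinset.1 ha, Multiset.mem_toFinset.1 hb', ?_⟩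
  intro x hxa hxb
  by_contra hcon
  have hx : x ∈ s.toFinset := Multiset.mem_toFinset.2 (Multiset.count_pos.1 (by omega))
  have h1 := hmax x hx
  have h2 := hmax' x (Finset.mem_erase.2 ⟨hxa, hx⟩)
  have h3 : ∑ y ∈ ({a, b, x} : Finset α), s.count y ≤ s.card := by
    rw [← Multiset.toFinset_sum_count_eq s]
    refine Finset.sum_le_sum_of_subset fun y hy => ?_
    simp only [Finset.mem_insert, Finset.mem_singleton] at hy
    rcases hy with rfl | rfl | rfl <;> assumption
  rw [Finset.sum_insert (by simp [hba.symm, hxa.symm]), Finset.sum_pair hxb.symm] at h3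
  omega

theorem exists_pairs : ∀ (N : ℕ) (s : Multiset α), s.card = 2 * N → (∀ a, s.count a ≤ N) →
    ∃ P : Multiset (α × α), P.card = N ∧ P.map Prod.fst + P.map Prod.snd = s ∧ ∀ p ∈ P, p.1 ≠ p.2
  | 0, s, hc, _ => ⟨0, rfl, by simpa using (Multiset.card_eq_zero.1 hc).symm, by simp⟩
  | N + 1, s, hc, h => by
    obtain ⟨a, b, hab, ha, hb, hx⟩ := exists_two hc h
    have hb' : b ∈ s.erase a := (Multiset.mem_erase_of_ne hab.symm).2 hb
    obtain ⟨P, h1, h2, h3⟩ := exists_pairs N ((s.erase a).erase b) (by
      rw [Multiset.card_erase_of_mem hb', Multiset.card_erase_of_mem ha, hc]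
      simp only [Nat.pred_eq_sub_one]
      omega) fun x => by
        by_cases hxa : x = a
        · subst hxa
          rw [Multiset.count_erase_of_ne hab, Multiset.count_erase_self]
          have := h x
          omega
        · by_cases hxb : x = b
          · subst hxb
            rw [Multiset.count_erase_self, Multiset.count_erase_of_ne hxa]
            have := h x
            omega
          · rw [Multiset.count_erase_of_ne hxb, Multiset.count_erase_of_ne hxa]
            exact hx x hxa hxb
    refine ⟨(a, b) ::ₘ P, by simp [h1], ?_, fun p hp => ?_⟩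
    · rw [Multiset.map_cons, Multiset.map_cons, Multiset.cons_add, Multiset.add_cons, h2,
        Multiset.cons_erase hb', Multiset.cons_erase ha]
    · rcases Multiset.mem_cons.1 hp with rfl | hp
      · exact hab
      · exact h3 p hp

end pairs

section val

variable {L Ω Γ : Type*} [Field L] [Field Ω] [Algebra L Ω] [LinearOrderedCommGroupWithZero Γ]
  {v : Valuation Ω Γ} {t : Ω} {N : ℕ} {S : Γ}

/-- the derivative is bounded by `S ^ (1 / N)` -/
def Bd (L : Type*) [Field L] [Algebra L Ω] (v : Valuation Ω Γ) (t : Ω) (N : ℕ) (S : Γ) : Prop :=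
  ∀ p : L[X], v (aeval t (derivative p)) ^ N ≤ S * v (aeval t p) ^ N

theorem Bd.iter (h : Bd L v t N S) (p : L[X]) :
    ∀ j : ℕ, v (aeval t (derivative^[j] p)) ^ N ≤ S ^ j * v (aeval t p) ^ N
  | 0 => by simp
  | j + 1 => by
    rw [Function.iterate_succ_apply', pow_succ', mul_assoc]
    exact (h _).trans (mul_le_mul_right (h.iter p j) _)

theorem Bd.hasse (h : Bd L v t N S) (hq : ∀ n : ℕ, n ≠ 0 → v n = 1) (p : L[X]) (j : ℕ) :
    v (aeval t (hasseDeriv j p)) ^ N ≤ S ^ j * v (aeval t p) ^ N := by
  have h1 := h.iter p j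
  rw [← factorial_smul_hasseDeriv, LinearMap.smul_apply, nsmul_eq_mul, map_mul, map_natCast, map_mul,
    hq _ j.factorial_ne_zero, one_mul] at h1
  exact h1

theorem taylor_eq (p : L[X]) (t x : Ω) :
    aeval (t + x) p = ∑ j ∈ Finset.range (p.natDegree + 1), aeval t (hasseDeriv j p) * x ^ j := by
  have h1 : aeval (t + x) p = (taylor t (p.map (algebraMap L Ω))).eval x := by
    rw [taylor_eval, add_comm, eval_map_algebraMap]
  rw [h1, eval_eq_sum_range' (n := p.natDegree + 1)
    (by rw [natDegree_taylor]; exact Nat.lt_succ_of_le natDegree_map_le)]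
  refine Finset.sum_congr rfl fun j _ => ?_
  rw [taylor_coeff, ← eval_map_algebraMap]
  congr 2
  ext i
  simp [hasseDeriv_coeff]

theorem Bd.one_le_root (h : Bd L v t N S) (hq : ∀ n : ℕ, n ≠ 0 → v n = 1) {p : L[X]}
    (hp : aeval t p ≠ 0) {α : Ω} (hα : aeval α p = 0) : 1 ≤ S * v (t - α) ^ N := by
  by_contra hcon
  push Not at hcon
  have h1 := taylor_eq p t (α - t)
  rw [add_sub_cancel, hα, Finset.sum_range_succ'] at h1
  simp only [hasseDeriv_zero', pow_zero, mul_one] at h1
  have h0 : v (aeval t p) ≠ 0 := by simpa using hp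
  have h2 : v (∑ j ∈ Finset.range p.natDegree,
      aeval t (hasseDeriv (j + 1) p) * (α - t) ^ (j + 1)) < v (aeval t p) := by
    refine v.map_sum_lt h0 fun j _ => lt_of_pow_lt_pow_left₀ N zero_le ?_
    rw [map_mul, map_pow, mul_pow, ← pow_mul, mul_comm (j + 1) N, pow_mul, v.map_sub_swap]
    refine (mul_le_mul_left (h.hasse hq p (j + 1)) _).trans_lt ?_
    rw [mul_right_comm, ← mul_pow]
    exact mul_lt_of_lt_one_left (zero_lt_iff.2 (pow_ne_zero _ h0))
      (pow_lt_one₀ zero_le hcon (Nat.succ_ne_zero j))
  rw [eq_neg_of_add_eq_zero_left h1.symm, v.map_neg] at h2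
  exact lt_irrefl _ h2

variable {L' : Type*} [Field L'] [Algebra L L']

/-- the linear form of a point of the projective line -/
def lf (ψ : L' →ₐ[L] Ω) (t : Ω) : Option L' → Ω
  | none => 1
  | some a => t - ψ a

/-- the bracket of two points of the projective line -/
def br : Option L' × Option L' → L'
  | (some a, some b) => a - b
  | (none, none) => 0
  | _ => 1

theorem br_ne : ∀ {p : Option L' × Option L'}, p.1 ≠ p.2 → br p ≠ 0
  | (some _, some _), h => sub_ne_zero.2 fun e => h (congrArg some e)
  | (none, none), h => absurd rfl h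
  | (none, some _), _ => one_ne_zero
  | (some _, none), _ => one_ne_zero

theorem br_le {ψ : L' →ₐ[L] Ω} (h : ∀ a, 1 ≤ S * v (t - ψ a) ^ N) (hN : N ≠ 0) :
    ∀ p : Option L' × Option L', v (ψ (br p)) ^ N ≤ S * (v (lf ψ t p.1) * v (lf ψ t p.2)) ^ N
  | (some a, some b) => by
    have h1 : ψ (a - b) = (t - ψ b) - (t - ψ a) := by rw [map_sub]; ring
    simp only [br, lf, h1, mul_pow]
    rcases le_total (v (t - ψ a)) (v (t - ψ b)) with h2 | h2
    · refine (pow_le_pow_left' ((v.map_sub _ _).trans (max_le le_rfl h2)) N).trans ?_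
      rw [← mul_assoc]
      exact le_mul_of_one_le_left' (h a)
    · refine (pow_le_pow_left' ((v.map_sub _ _).trans (max_le h2 le_rfl)) N).trans ?_
      rw [mul_comm (v (t - ψ a) ^ N), ← mul_assoc]
      exact le_mul_of_one_le_left' (h b)
  | (none, none) => by simp [br, hN]
  | (none, some b) => by simpa [br, lf] using h b
  | (some a, none) => by simpa [br, lf] using h a

theorem prod_br_le {ψ : L' →ₐ[L] Ω} (h : ∀ a, 1 ≤ S * v (t - ψ a) ^ N) (hN : N ≠ 0)
    (P : Multiset (Option L' × Option L')) : v (ψ (P.map br).prod) ^ N ≤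
      S ^ P.card * v ((P.map Prod.fst + P.map Prod.snd).map (lf ψ t)).prod ^ N := by
  induction P using Multiset.induction_on with
  | empty => simp
  | cons p P ih =>
    simp only [Multiset.map_cons, Multiset.prod_cons, map_mul, mul_pow, Multiset.card_cons,
      Multiset.map_add, Multiset.prod_add] at ih ⊢
    refine (mul_le_mul' (br_le h hN p) ih).trans (le_of_eq ?_)
    rw [mul_pow, pow_succ]
    ac_rfl

end val

section inv

variable {L : Type*} [Field L] [CharZero L]

/-- **the invariant** -/
theorem exists_inv {Q : L[X]} {N : ℕ} (hN : N ≠ 0) (h1 : N ≤ Q.natDegree) (h2 : Q.natDegree ≤ 2 * N)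
    (h3 : ∀ p : L[X], Irreducible p → ¬ p ^ (N + 1) ∣ Q) : ∃ r : ℕ, 0 < r ∧ ∃ φ : L, φ ≠ 0 ∧
      ∀ (Ω Γ : Type*) [Field Ω] [Algebra L Ω] [IsAlgClosed Ω] [LinearOrderedCommGroupWithZero Γ]
        (v : Valuation Ω Γ) (t : Ω) (S : Γ), Transcendental L t → (∀ n : ℕ, n ≠ 0 → v n = 1) →
        Bd L v t N S → v (algebraMap L Ω φ) ≤ (v (aeval t Q) * S) ^ r := by
  classical
  have hQ : Q ≠ 0 := fun h => by
    rw [h, natDegree_zero] at h1
    omega
  let L' := Q.SplittingField
  have hs : (Q.map (algebraMap L L')).Splits := SplittingField.splits Q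
  have hQ' : Q.map (algebraMap L L') ≠ 0 := map_ne_zero hQ
  let R : Multiset L' := (Q.map (algebraMap L L')).roots
  have hR : R.card = Q.natDegree := by rw [← hs.natDegree_eq_card_roots, natDegree_map]
  obtain ⟨P, hP1, hP2, hP3⟩ := exists_pairs N
    (R.map some + Multiset.replicate (2 * N - Q.natDegree) none) (by simp [hR]; omega) fun a => by
      rcases a with _ | a
      · rw [Multiset.count_add, Multiset.count_replicate_self,
          Multiset.count_eq_zero_of_notMem (by simp)]
        omega
      · rw [Multiset.count_add, Multiset.count_map_eq_count' _ _ (Option.some_injective _),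
          Multiset.count_replicate, if_neg (by simp), add_zero, count_roots]
        by_contra hcon
        push Not at hcon
        have hi : IsIntegral L a := Algebra.IsIntegral.isIntegral a
        refine h3 (minpoly L a) (minpoly.irreducible hi) ?_
        have h4 : ∀ j ≤ N + 1, ∀ q : L[X], q ≠ 0 → j ≤ rootMultiplicity a (q.map (algebraMap L L')) →
            minpoly L a ^ j ∣ q := by
          intro j
          induction j with
          | zero => simp
          | succ j ih =>
            intro hj q hq hm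
            have hq' : q.map (algebraMap L L') ≠ 0 := map_ne_zero hq
            obtain ⟨q₁, rfl⟩ : minpoly L a ∣ q := minpoly.dvd L a (by
              rw [← eval_map_algebraMap]
              exact (rootMultiplicity_pos hq').1 (by omega))
            have h5 : rootMultiplicity a ((minpoly L a).map (algebraMap L L')) ≤ 1 :=
              rootMultiplicity_le_one_of_separable (minpoly.irreducible hi).separable.map a
            rw [Polynomial.map_mul] at hm hq'
            rw [rootMultiplicity_mul hq'] at hm
            rw [pow_succ']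
            exact mul_dvd_mul_left _ (ih (by omega) q₁ (right_ne_zero_of_mul hq) (by omega))
        exact h4 _ le_rfl Q hQ hcon
  let φ₀ : L' := algebraMap L L' Q.leadingCoeff * (P.map br).prod
  have hφ₀ : φ₀ ≠ 0 := mul_ne_zero (by simpa using hQ) (Multiset.prod_ne_zero fun h => by
    obtain ⟨p, hp, h⟩ := Multiset.mem_map.1 h
    exact br_ne (hP3 p hp) h)
  have : IsGalois L L' := {}
  refine ⟨Fintype.card (L' ≃ₐ[L] L'), Fintype.card_pos, Algebra.norm L φ₀,
    Algebra.norm_ne_zero_iff.2 hφ₀, ?_⟩
  intro Ω Γ _ _ _ _ v t S ht hq hB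
  have key : ∀ ψ : L' →ₐ[L] Ω, v (ψ φ₀) ≤ v (aeval t Q) * S := fun ψ => by
    have h4 : ∀ a, 1 ≤ S * v (t - ψ a) ^ N := fun a => by
      have hi : IsIntegral L a := Algebra.IsIntegral.isIntegral a
      refine hB.one_le_root hq (p := minpoly L a) (fun h => ht ⟨_, minpoly.ne_zero hi, h⟩) ?_
      rw [aeval_algHom_apply, minpoly.aeval, map_zero]
    have h5 := prod_br_le h4 hN P
    have h6 : aeval t Q = algebraMap L Ω Q.leadingCoeff * (R.map fun a => t - ψ a).prod := by
      have h7 := congrArg (eval₂ (ψ : L' →+* Ω) t) hs.eq_prod_roots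
      rw [eval₂_map, eval₂_mul, eval₂_C, eval₂_multiset_prod, Multiset.map_map, leadingCoeff_map]
        at h7
      rw [aeval_def, ← ψ.comp_algebraMap, h7]
      simp [R]
    rw [hP2, hP1, Multiset.map_add, Multiset.prod_add, Multiset.map_map, Multiset.map_replicate]
      at h5
    simp only [lf, Multiset.prod_replicate, one_pow, mul_one, Function.comp_def, ← mul_pow] at h5
    have h8 := le_of_pow_le_pow_left₀ hN zero_le h5
    rw [h6, map_mul, map_mul, map_mul, ψ.commutes, mul_assoc, mul_comm _ S]
    exact mul_le_mul_right h8 _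
  let ψ₀ : L' →ₐ[L] Ω := IsAlgClosed.lift
  rw [← ψ₀.commutes, Algebra.norm_eq_prod_automorphisms, map_prod, map_prod, ← Finset.card_univ,
    ← Finset.prod_const]
  exact Finset.prod_le_prod' fun σ _ => key (ψ₀.comp σ)

end inv

end Crest.Agent.X262.Rl57
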