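import Crest.Agent.X262.Rl57.Core

/-!
# Row 262, RL (helper57), part 1: the ruled lemma for a derivation

`F = L(t)`, `δ ≠ 0` a derivation of `F / L`, `g` a rational section of `N K` (in the frame of `δ`)
without zeros and with poles of order `≤ N` on the projective line over `L`.

* `exists_inv_der` : there is `φ ∈ L`, `φ ≠ 0`, with `v φ * v g ^ r ≤ S ^ r` for every valuation `v`
  of `F` with `v (δ f) ^ N ≤ S * v f ^ N` for all `f`.
-/

set_option autoImplicit false

open Polynomial WithZero IntermediateField IsDedekindDomain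

namespace Crest.Agent.X262.Rl57

variable {L F : Type*} [Field L] [Field F] [Algebra L F] {t : F}

theorem der_aeval (δ : Derivation L F F) (t : F) (p : L[X]) :
    δ (aeval t p) = aeval t (derivative p) * δ t := by
  rw [Derivation.map_aeval, smul_eq_mul]

theorem exists_div (htop : L⟮t⟯ = ⊤) (f : F) : ∃ p q : L[X], f = aeval t p / aeval t q :=
  (mem_adjoin_simple_iff L f).1 (htop ▸ mem_top)

theorem der_t_ne (htop : L⟮t⟯ = ⊤) {δ : Derivation L F F} (hδ : δ ≠ 0) : δ t ≠ 0 := fun h =>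
  hδ (Derivation.ext fun f => by
    obtain ⟨p, q, rfl⟩ := exists_div htop f
    simp [Derivation.leibniz_div, h])

theorem inv_top (htop : L⟮t⟯ = ⊤) : L⟮t⁻¹⟯ = ⊤ := by
  rw [eq_top_iff, ← htop, adjoin_simple_le_iff]
  simpa using inv_mem (mem_adjoin_simple_self L t⁻¹)

theorem inv_tr (ht : Transcendental L t) : Transcendental L t⁻¹ := fun h => ht (by simpa using h.inv)

/-- the valuations of the finite places -/
theorem exists_vals (ht : Transcendental L t) (htop : L⟮t⟯ = ⊤) :
    ∃ w : ∀ p : L[X], Irreducible p → Valuation F ℤᵐ⁰,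
      (∀ p hp (q : L[X]), w p hp (aeval t q) ≤ 1) ∧ (∀ p hp, w p hp (aeval t p) = exp (-1)) ∧
      (∀ p hp q, ¬ p ∣ q → w p hp (aeval t q) = 1) ∧
      ∀ x, (∀ p hp, w p hp x ≤ 1) → ∃ q : L[X], aeval t q = x := by
  let _ : Algebra L[X] F := (aeval t : L[X] →ₐ[L] F).toRingHom.toAlgebra
  have he : ∀ q : L[X], algebraMap L[X] F q = aeval t q := fun _ => rfl
  have hi : Function.Injective (algebraMap L[X] F) := transcendental_iff_injective.1 ht
  have : FaithfulSMul L[X] F := (faithfulSMul_iff_algebraMap_injective _ _).2 hi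
  have : IsFractionRing L[X] F := IsFractionRing.of_field _ _ fun z => exists_div htop z
  let P : ∀ p : L[X], Irreducible p → HeightOneSpectrum L[X] := fun p hp =>
    ⟨Ideal.span {p}, (Ideal.span_singleton_prime hp.ne_zero).2 hp.prime, by simpa using hp.ne_zero⟩
  refine ⟨fun p hp => (P p hp).valuation F, fun p hp q => (P p hp).valuation_le_one q,
    fun p hp => ?_, fun p hp q hq => ?_, fun x hx => ?_⟩
  · rw [← he, HeightOneSpectrum.valuation_of_algebraMap]
    exact (P p hp).intValuation_singleton hp.ne_zero rfl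
  · refine le_antisymm ((P p hp).valuation_le_one q) (not_lt.1 fun h => hq ?_)
    rw [← he, HeightOneSpectrum.valuation_lt_one_iff_mem] at h
    exact Ideal.mem_span_singleton.1 h
  · refine HeightOneSpectrum.mem_integers_of_valuation_le_one F x fun v => ?_
    obtain ⟨p, hp⟩ := (IsPrincipalIdealRing.principal v.asIdeal).principal
    have h0 : p ≠ 0 := fun h => v.ne_bot (by rw [hp, h]; simp)
    have h1 : Irreducible p := ((Ideal.span_singleton_prime h0).1
      ((show v.asIdeal = Ideal.span {p} from hp) ▸ v.isPrime)).irreducible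
    have h2 : v = P p h1 := HeightOneSpectrum.ext hp
    exact h2 ▸ hx p h1

/-- the place at infinity -/
theorem exists_inf (ht : Transcendental L t) (htop : L⟮t⟯ = ⊤) : ∃ w : Valuation F ℤᵐ⁰,
    w t⁻¹ = exp (-1) ∧ ∀ q : L[X], q ≠ 0 → w (aeval t q) = exp (q.natDegree : ℤ) := by
  obtain ⟨w, -, h2, h3, -⟩ := exists_vals (inv_tr ht) (inv_top htop)
  have h0 : t ≠ 0 := fun h => ht (h ▸ isAlgebraic_zero)
  have h4 : w X irreducible_X t⁻¹ = exp (-1) := by simpa using h2 X irreducible_X
  refine ⟨w X irreducible_X, h4, fun q hq => ?_⟩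
  let _ := invertibleOfNonzero h0
  have h5 := eval₂_reverse_mul_pow (algebraMap L F) t q
  rw [invOf_eq_inv, ← aeval_def, ← aeval_def] at h5
  have h6 : w X irreducible_X t = exp 1 := by
    rw [map_inv₀, exp_neg, inv_inj] at h4
    exact h4
  rw [← h5, map_mul, h3 X irreducible_X _ (by simpa [X_dvd_iff] using hq), one_mul, map_pow, h6,
    ← exp_nsmul, nsmul_eq_mul, mul_one]

variable [CharZero L]

/-- `g` has no zeros and poles of order at most `N` as a section of `N K` -/
def Hor (δ : Derivation L F F) (N : ℕ) (g : F) : Prop :=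
  ∀ (v : Valuation F ℤᵐ⁰) (π : F), (∀ c : L, v (algebraMap L F c) ≤ 1) → v π = exp (-1) →
    v (δ π) ^ N ≤ v g ∧ v g * v π ^ N ≤ v (δ π) ^ N

theorem Hor.exists_poly (ht : Transcendental L t) (htop : L⟮t⟯ = ⊤) {δ : Derivation L F F}
    (hδ : δ ≠ 0) {N : ℕ} {g : F} (hg : g ≠ 0) (h : Hor δ N g) :
    ∃ Q : L[X], aeval t Q = δ t ^ N / g ∧ N ≤ Q.natDegree ∧ Q.natDegree ≤ 2 * N ∧
      ∀ p : L[X], Irreducible p → ¬ p ^ (N + 1) ∣ Q := by
  obtain ⟨w, h1, h2, h3, h4⟩ := exists_vals ht htop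
  have hc := der_t_ne htop hδ
  have h5 : ∀ p hp, w p hp (δ t) ^ N ≤ w p hp g ∧ w p hp g * exp (-1) ^ N ≤ w p hp (δ t) ^ N := by
    intro p hp
    have h6 := h (w p hp) _ (fun c => by simpa using h1 p hp (C c)) (h2 p hp)
    have h7 : ¬ p ∣ derivative p := fun hd =>
      hp.not_isUnit (hp.separable.isUnit_of_dvd' dvd_rfl hd)
    rwa [der_aeval, map_mul, h3 p hp _ h7, one_mul, h2] at h6
  have hv : ∀ v : Valuation F ℤᵐ⁰, 0 < v g := fun v => zero_lt_iff.2 (by simpa using hg)
  obtain ⟨Q, hQ⟩ := h4 (δ t ^ N / g) fun p hp => by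
    rw [map_div₀, map_pow, div_le_one₀ (hv _)]
    exact (h5 p hp).1
  have hQ0 : Q ≠ 0 := fun h0 => by
    rw [h0, map_zero] at hQ
    exact div_ne_zero (pow_ne_zero _ hc) hg hQ.symm
  obtain ⟨u, hu1, hu2⟩ := exists_inf ht htop
  have h8 := h u t⁻¹ (fun c => by
    rcases eq_or_ne c 0 with rfl | h0
    · simp
    · simpa using (hu2 (C c) (by simpa using h0)).le) hu1
  have h9 : u (δ t⁻¹) = exp (-2) * u (δ t) := by
    rw [Derivation.leibniz_inv, smul_eq_mul, map_mul, Valuation.map_neg, map_pow, hu1, ← exp_nsmul]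
    rfl
  have h10 : u (δ t) ^ N = exp (Q.natDegree : ℤ) * u g := by
    rw [← hu2 Q hQ0, hQ, map_div₀, map_pow, div_mul_cancel₀ _ (hv u).ne']
  rw [h9, mul_pow, h10, hu1, ← mul_assoc, ← exp_nsmul, ← exp_nsmul, ← exp_add, mul_comm (u g),
    mul_le_mul_iff_left₀ (hv u), exp_le_exp, mul_le_iff_le_one_left (hv u), ← exp_zero,
    exp_le_exp] at h8
  simp only [nsmul_eq_mul] at h8
  refine ⟨Q, hQ, by omega, by omega, fun p hp ⟨q, hq⟩ => ?_⟩
  have h11 : w p hp (aeval t Q) ≤ exp (-1) ^ (N + 1) := by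
    rw [hq, map_mul, map_mul, map_pow, map_pow, h2]
    exact mul_le_of_le_one_right' (h1 p hp q)
  rw [hQ, map_div₀, map_pow, div_le_iff₀ (hv _), mul_comm] at h11
  have h12 := (h5 p hp).2.trans h11
  rw [mul_le_mul_iff_right₀ (hv _), ← exp_nsmul, ← exp_nsmul, exp_le_exp] at h12
  simp only [nsmul_eq_mul] at h12
  omega

/-- valuation rings extend to the algebraic closure -/
theorem exists_ext (V : ValuationSubring F) : ∃ W : ValuationSubring (AlgebraicClosure F),
    ∀ x y : F, W.valuation (algebraMap F _ x) ≤ W.valuation (algebraMap F _ y) ↔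
      V.valuation x ≤ V.valuation y := by
  obtain ⟨W, hW⟩ := (LocalSubring.map (algebraMap F (AlgebraicClosure F))
    V.toLocalSubring).exists_le_valuationSubring
  have h1 : W.comap (algebraMap F (AlgebraicClosure F)) = V := by
    have h2 : V ≤ W.comap (algebraMap F (AlgebraicClosure F)) := fun x hx => hW.1 ⟨x, hx, rfl⟩
    refine le_antisymm (fun x hx => ?_) h2
    by_contra hxV
    have h0 : x ≠ 0 := fun h => hxV (h ▸ zero_mem _)
    have h3 : x⁻¹ ∈ V := (V.mem_or_inv_mem x).resolve_left hxV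
    let y : (LocalSubring.map (algebraMap F (AlgebraicClosure F)) V.toLocalSubring).toSubring :=
      ⟨algebraMap F _ x⁻¹, x⁻¹, h3, rfl⟩
    have h4 : IsUnit (Subring.inclusion hW.1 y) :=
      IsUnit.of_mul_eq_one ⟨algebraMap F _ x, hx⟩ (Subtype.ext (by simp [y, h0]))
    obtain ⟨⟨_, z, hz, rfl⟩, h5⟩ := (hW.2.map_nonunit y h4).exists_right_inv
    have h6 : x⁻¹ * z = 1 := (algebraMap F (AlgebraicClosure F)).injective (by
      simpa [y] using congrArg Subtype.val h5)
    exact hxV ((inv_mul_eq_one₀ h0).1 h6 ▸ hz)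
  refine ⟨W, fun x y => ?_⟩
  rcases eq_or_ne y 0 with rfl | hy
  · simp
  · rw [← div_le_one₀ (zero_lt_iff.2 (by simpa using hy)), ← div_le_one₀ (a := V.valuation x)
      (zero_lt_iff.2 (by simpa using hy)), ← map_div₀, ← map_div₀, ← map_div₀,
      W.valuation_le_one_iff, V.valuation_le_one_iff, ← h1]
    rfl

/-- **the ruled lemma for a derivation** -/
theorem exists_inv_der (ht : Transcendental L t) (htop : L⟮t⟯ = ⊤) {δ : Derivation L F F}
    (hδ : δ ≠ 0) {N : ℕ} (hN : N ≠ 0) {g : F} (hg : g ≠ 0) (h : Hor δ N g) :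
    ∃ r : ℕ, 0 < r ∧ ∃ φ : L, φ ≠ 0 ∧ ∀ (V : ValuationSubring F) (s : F),
      (∀ n : ℕ, n ≠ 0 → V.valuation n = 1) →
      (∀ f, V.valuation (δ f) ^ N ≤ V.valuation s * V.valuation f ^ N) →
      V.valuation (algebraMap L F φ) * V.valuation g ^ r ≤ V.valuation s ^ r := by
  obtain ⟨Q, h1, h2, h3, h4⟩ := h.exists_poly ht htop hδ hg
  obtain ⟨r, hr, φ, hφ, h5⟩ := exists_inv hN h2 h3 h4
  refine ⟨r, hr, φ, hφ, fun V s hq hs => ?_⟩
  obtain ⟨W, hW⟩ := exists_ext V
  have hc := der_t_ne htop hδ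
  let j := algebraMap F (AlgebraicClosure F)
  have hj : ∀ p : L[X], aeval (j t) p = j (aeval t p) := fun p => aeval_algebraMap_apply _ t p
  have h6 := h5 (AlgebraicClosure F) _ W.valuation (j t) (W.valuation (j (s / δ t ^ N)))
    ((transcendental_algebraMap_iff j.injective).2 ht) (fun n hn => by
      rw [← map_natCast j]
      refine le_antisymm ?_ ?_
      · simp
      · simpa using (hW 1 n).2 (by simpa using (hq n hn).ge)) fun p => by
      rw [hj, hj, ← map_pow W.valuation, ← map_pow W.valuation, ← map_pow j, ← map_pow j,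
        ← map_mul W.valuation, ← map_mul j, hW, map_mul, map_div₀, div_mul_eq_mul_div,
        le_div_iff₀ (zero_lt_iff.2 (by simpa using fun h => absurd h hc)),
        ← map_mul V.valuation, ← mul_pow, ← der_aeval, map_pow, map_pow]
      exact hs _
  rw [hj, h1, IsScalarTower.algebraMap_apply L F, ← map_mul W.valuation, ← map_mul j,
    ← map_pow W.valuation, ← map_pow j, hW,
    show δ t ^ N / g * (s / δ t ^ N) = s / g by field_simp, map_pow, map_div₀, div_pow,
    le_div_iff₀ (zero_lt_iff.2 (by simpa using fun h => absurd h hg))] at h6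
  exact h6

end Crest.Agent.X262.Rl57
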