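import Crest.Agent.X262.Rl57.Der
import Crest.Agent.X262.Wr72.Val

/-!
# Row 262, RL (helper57), part 2: the ruled lemma for canonical values

`k ≤ L ≤ F`, `F = L(t)`; `b`, `b'` bases of differentials of `L`, `F` over `k`.

* `LKv v b g` : `g` is the value of a generator of the logarithmic canonical class at `v`;
* `lKv_of_kv` : at a divisorial valuation `LKv = Kv * exp 1`;
* `exists_rel` : the derivation `δ` of `F / L` with `jb b' (f, a) = δ f * jb b a`;
* `kv_hor` : at a horizontal valuation the canonical value is `v (δ π)`;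
* `rl_val` : the ruled lemma.
-/

set_option autoImplicit false
set_option linter.unusedSectionVars false

open WithZero IntermediateField Module
open scoped KaehlerDifferential

namespace Crest.Agent.X262.Rl57

open Crest.Agent.X277 Crest.Agent.X277.Jet Crest.Agent.X262.Wr72
open Crest.Agent.R276 Crest.Agent.R276.FKDefs_779 Crest.Agent.R276.DivVal_858

section Log

variable {k K ι Γ : Type*} [Field k] [Field K] [Algebra k K] [Fintype ι] [DecidableEq ι]
  [LinearOrderedCommGroupWithZero Γ]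

/-- `g` is the largest value of a logarithmic Jacobian -/
def LKv (v : Valuation K Γ) (b : Basis ι K Ω[K⁄k]) (g : Γ) : Prop :=
  (∃ z : ι → K, (∀ i, z i ≠ 0) ∧ jb b z ≠ 0 ∧ v (jb b z) = g * ∏ i, v (z i)) ∧
    ∀ z : ι → K, v (jb b z) ≤ g * ∏ i, v (z i)

theorem v_det_le' {v : Valuation K Γ} {M : Matrix ι ι K} {c : ι → Γ}
    (h : ∀ i j, v (M i j) ≤ c j) : v M.det ≤ ∏ j, c j := by
  rw [Matrix.det_apply]
  refine v.map_sum_le fun s _ => ?_
  have h1 : v (Equiv.Perm.sign s • ∏ i, M (s i) i) = v (∏ i, M (s i) i) := by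
    rcases Int.units_eq_one_or (Equiv.Perm.sign s) with h | h <;> simp [h]
  rw [h1, map_prod]
  exact Finset.prod_le_prod' fun i _ => h _ _

theorem det_der' (X : Fr k K ι) (δ : ι → Derivation k K K) (z : ι → K) :
    (Matrix.of fun i j => δ i (z j)).det = (Matrix.of fun i j => δ i (X.y j)).det * X.jc z := by
  unfold Fr.jc
  rw [← Matrix.det_mul]
  congr 1
  ext i j
  rw [Matrix.mul_apply, Matrix.of_apply, X.expand (δ i)]
  rfl

variable {v : Valuation K ℤᵐ⁰} {π : K}

theorem ne_of_unif (hπ : v π = exp (-1)) : π ≠ 0 := fun h => by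
  rw [h, map_zero] at hπ
  exact exp_ne_zero hπ.symm

theorem v_int_le (v : Valuation K Γ) (m : ℤ) : v (m : K) ≤ 1 :=
  intCast_mem v.valuationSubring m

/-- a regular derivation which is logarithmic along the uniformiser is logarithmic -/
theorem log_le (hπ : v π = exp (-1)) (D : Derivation k K K) (hD : ∀ x, v x ≤ 1 → v (D x) ≤ 1)
    (hDπ : v (D π) ≤ v π) (f : K) : v (D f) ≤ v f := by
  rcases eq_or_ne f 0 with rfl | hf
  · simp
  have h0 := ne_of_unif hπ
  obtain ⟨m, hm⟩ : ∃ m : ℤ, v f = exp m := ⟨_, (exp_log (by simpa using hf)).symm⟩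
  have hu : v (f * π ^ m) = 1 := by
    rw [map_mul, map_zpow₀, hm, hπ, ← exp_zsmul, ← exp_add]
    simp
  have e : D f = (D (f * π ^ m) * (f * π ^ m)⁻¹ - m * (D π * π⁻¹)) * f := by
    rw [Derivation.leibniz, Derivation.leibniz_zpow]
    simp only [smul_eq_mul, zsmul_eq_mul]
    rw [zpow_sub_one₀ h0]
    have := zpow_ne_zero m h0
    field_simp
    ring
  rw [e, map_mul]
  refine mul_le_of_le_one_left' ((v.map_sub _ _).trans (max_le ?_ ?_))
  · rw [map_mul, map_inv₀, hu, inv_one, mul_one]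
    exact hD _ hu.le
  · rw [map_mul, map_mul, map_inv₀]
    exact mul_le_one' (v_int_le v m) (mul_inv_le_one_of_le₀ hDπ zero_le)

/-- the logarithmic Jacobian inequality -/
theorem jc_le {Z : Fr k K ι} (hZ : FAt v Z) {i₀ : ι} (hπ : v (Z.y i₀) = exp (-1)) (z : ι → K) :
    v (Z.jc z) ≤ exp 1 * ∏ i, v (z i) := by
  let δ : ι → Derivation k K K := fun i => (if i = i₀ then Z.y i₀ else 1) • Z.D i
  have h1 : (Matrix.of fun i j => δ i (Z.y j)) =
      Matrix.diagonal fun i => if i = i₀ then Z.y i₀ else 1 := by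
    ext i j
    simp only [δ, Matrix.of_apply, Derivation.smul_apply, Z.dual, smul_eq_mul,
      Matrix.diagonal_apply, mul_ite, mul_one, mul_zero]
  have h2 := det_der' Z δ z
  rw [h1, Matrix.det_diagonal, Finset.prod_ite_eq', if_pos (Finset.mem_univ _)] at h2
  have h3 : v (Z.y i₀ * Z.jc z) ≤ ∏ i, v (z i) := by
    rw [← h2]
    refine v_det_le' fun i j => log_le hπ (δ i) (fun a ha => ?_) ?_ (z j)
    · rw [Derivation.smul_apply, smul_eq_mul, map_mul]
      refine mul_le_one' ?_ (hZ.2 i a ha)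
      split_ifs
      · exact hZ.1 i₀
      · exact (map_one v).le
    · simp only [δ, Derivation.smul_apply, Z.dual, smul_eq_mul]
      split_ifs <;> simp
  rw [map_mul, hπ] at h3
  calc v (Z.jc z) = exp 1 * (exp (-1) * v (Z.jc z)) := by
        rw [← mul_assoc, ← exp_add]
        simp
    _ ≤ _ := mul_le_mul_right h3 _

theorem kv_fr {v : Valuation K Γ} {Z : Fr k K ι} (hZ : FAt v Z) (b : Basis ι K Ω[K⁄k]) :
    Kv v b (v (jb b Z.y)) := by
  have h := (hZ.kv Z).change b
  rwa [← map_mul, ← jb_basis, ← jb_change] at h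

theorem jb_fr (Z : Fr k K ι) (b : Basis ι K Ω[K⁄k]) (z : ι → K) :
    jb b z = jb b Z.y * Z.jc z := by
  rw [jb_change Z.basis b z, jb_change Z.basis b Z.y, jb_basis, jb_basis, Z.jc_self, mul_one]

theorem jb_fr_ne (Z : Fr k K ι) (b : Basis ι K Ω[K⁄k]) : jb b Z.y ≠ 0 := by
  rw [jb_change Z.basis b Z.y, jb_basis, Z.jc_self, mul_one]
  exact (b.isUnit_det Z.basis).ne_zero

theorem lKv_fr {Z : Fr k K ι} (hZ : FAt v Z) {i₀ : ι} (hπ : v (Z.y i₀) = exp (-1))
    (hu : ∀ i, i ≠ i₀ → v (Z.y i) = 1) (b : Basis ι K Ω[K⁄k]) :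
    LKv v b (v (jb b Z.y) * exp 1) := by
  refine ⟨⟨Z.y, y_ne Z, jb_fr_ne Z b, ?_⟩, fun z => ?_⟩
  · rw [Finset.prod_eq_single i₀ (fun i _ h => hu i h) (by simp), hπ, mul_assoc, ← exp_add]
    simp
  · rw [jb_fr Z b z, map_mul, mul_assoc]
    exact mul_le_mul_right (jc_le hZ hπ z) _

theorem isUnif_of (hπ : v π = exp (-1)) : IsUnif v.valuationSubring π := by
  have e := Valuation.isEquiv_valuation_valuationSubring v
  refine ⟨?_, ne_of_unif hπ, fun y hy => (e y π).1 ?_⟩
  · rw [← e.lt_one_iff_lt_one, hπ, ← exp_zero, exp_lt_exp]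
    norm_num
  · rw [← e.lt_one_iff_lt_one] at hy
    rcases eq_or_ne y 0 with rfl | h
    · simp
    · rw [← exp_log (x := v y) (by simpa using h), ← exp_zero, exp_lt_exp] at hy
      rw [← exp_log (x := v y) (by simpa using h), hπ, exp_le_exp]
      omega

theorem eq_of_isUnif (hπ : v π = exp (-1)) {s : K} (hs : IsUnif v.valuationSubring s) :
    v s = exp (-1) := by
  have e := Valuation.isEquiv_valuation_valuationSubring v
  have h := isUnif_of hπ
  exact hπ ▸ le_antisymm ((e _ _).2 (h.max _ hs.lt)) ((e _ _).2 (hs.max _ h.lt))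

/-- at a divisorial valuation the logarithmic canonical value is `Kv * exp 1` -/
theorem lKv_of_kv [CharZero k] [Algebra.EssFiniteType k K] {n : ℕ} {b : Basis (Fin n) K Ω[K⁄k]}
    (hv : IsDiv k n v.valuationSubring) (hπ : v π = exp (-1)) {g : ℤᵐ⁰} (h : Kv v b g) :
    LKv v b (g * exp 1) := by
  have := Module.Finite.of_basis b
  obtain ⟨Z, hZ, i₀, h1, h2⟩ := exists_at (E := k) (K := K) (n := n)
    (by rw [trdeg_eq, finrank_eq_card_basis b, Fintype.card_fin]) hv
  have hZ' : FAt v Z := ⟨hZ.1, hZ.2⟩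
  rw [h.unique (kv_fr hZ' b)]
  refine lKv_fr hZ' (eq_of_isUnif hπ h1) (fun i hi => ?_) b
  have h3 := h2.2 (MvPolynomial.X ⟨i, hi⟩) (MvPolynomial.X_ne_zero _)
  rw [MvPolynomial.aeval_X] at h3
  exact (Valuation.isEquiv_valuation_valuationSubring v).eq_one_iff_eq_one.2 h3

end Log

section Rel

variable {k L F : Type*} [Field k] [Field L] [Field F] [Algebra k L] [Algebra k F] [Algebra L F]
  [IsScalarTower k L F] {n : ℕ}

/-- `δ` is the frame of `F / L` induced by the bases `b`, `b'` -/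
def Rel (b : Basis (Fin n) L Ω[L⁄k]) (b' : Basis (Fin (n + 1)) F Ω[F⁄k])
    (δ : Derivation L F F) : Prop :=
  ∀ (f : F) (a : Fin n → L),
    jb b' (Fin.cons f fun i => algebraMap L F (a i)) = δ f * algebraMap L F (jb b a)

variable [CharZero k] {b : Basis (Fin n) L Ω[L⁄k]} {b' : Basis (Fin (n + 1)) F Ω[F⁄k]}
  {δ : Derivation L F F}

theorem exists_fr' [Algebra.EssFiniteType k L] (b : Basis (Fin n) L Ω[L⁄k]) :
    Nonempty (Fr k L (Fin n)) := by
  have h := exists_fr k L
  rwa [finrank_eq_card_basis b, Fintype.card_fin] at h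

theorem exists_rel [Algebra.EssFiniteType k L] (b : Basis (Fin n) L Ω[L⁄k])
    (b' : Basis (Fin (n + 1)) F Ω[F⁄k]) (Z : Fr L F Unit) :
    ∃ δ : Derivation L F F, δ ≠ 0 ∧ Rel b b' δ := by
  obtain ⟨Y⟩ := exists_fr' b
  obtain ⟨X, hX⟩ := exists_tower Z Y
  let e : Fin (n + 1) ≃ Unit ⊕ Fin n :=
    (finSuccEquiv n).trans ((Equiv.optionEquivSumPUnit _).trans (Equiv.sumComm _ _))
  have h1 := jb_fr_ne (X.reindex e) b'
  have h2 : algebraMap L F (jb b Y.y) ≠ 0 := (map_ne_zero _).2 (jb_fr_ne Y b)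
  refine ⟨(jb b' (X.reindex e).y / algebraMap L F (jb b Y.y)) • Z.D (), fun h => ?_,
    fun f a => ?_⟩
  · have h3 := congrArg (fun d : Derivation L F F => d (Z.y ())) h
    simp [Z.dual, h1, h2] at h3
  · have h3 : (X.reindex e).jc (Fin.cons f fun i => algebraMap L F (a i)) =
        X.jc (Sum.elim (fun _ => f) fun i => algebraMap L F (a i)) := by
      unfold Fr.jc
      rw [← Matrix.det_submatrix_equiv_self e]
      congr 1
      ext i j
      refine Fin.cases ?_ (fun j => ?_) j <;> rfl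
    rw [jb_fr (X.reindex e), h3, hX.jc, jc_unique, jb_fr Y b a, map_mul, Derivation.smul_apply,
      smul_eq_mul]
    field_simp

/-- at a horizontal valuation the canonical value is that of the derivative of a uniformiser -/
theorem kv_hor [Algebra.EssFiniteType k L] [Algebra.EssFiniteType k F] (h : Rel b b' δ)
    {v : Valuation F ℤᵐ⁰} (hv : ∀ c : L, v (algebraMap L F c) ≤ 1) {π : F}
    (hπ : v π = exp (-1)) : Kv v b' (v (δ π)) := by
  have := Module.Finite.of_basis b'
  have e := Valuation.isEquiv_valuation_valuationSubring v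
  have h1 : ∀ c : L, c ≠ 0 → v (algebraMap L F c) = 1 := fun c hc =>
    le_antisymm (hv c) (by
      have h2 := hv c⁻¹
      rwa [map_inv₀, map_inv₀, inv_le_one₀ (zero_lt_iff.2 (by simpa using hc))] at h2)
  obtain ⟨Y⟩ := exists_fr' b
  obtain ⟨Z, hZ, h2⟩ := at_of_unif (E := k) (K := F) (m := n) (R := v.valuationSubring)
    (by rw [trdeg_eq, finrank_eq_card_basis b', Fintype.card_fin])
    (fun c => by rw [IsScalarTower.algebraMap_apply k L F]; exact hv _)
    (x := fun i => algebraMap L F (Y.y i)) ⟨fun i => hv _, fun p hp => by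
      rw [← e.eq_one_iff_eq_one]
      exact (congrArg v (MvPolynomial.aeval_algebraMap_apply F Y.y p)).trans
        (h1 _ fun h0 => hp (algebraicIndependent_iff.1 Y.ai p h0))⟩ (isUnif_of hπ)
  have h3 := kv_fr (v := v) (Z := Z) ⟨h2.1, h2.2⟩ b'
  rwa [hZ, h, map_mul, h1 _ (jb_fr_ne Y b), mul_one] at h3

/-- the relative logarithmic inequality -/
theorem Rel.le {Γ : Type*} [LinearOrderedCommGroupWithZero Γ] (h : Rel b b' δ)
    {v : Valuation F Γ} {gF gL : Γ} (hF : LKv v b' gF)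
    (hL : LKv (v.comap (algebraMap L F)) b gL) (f : F) : v (δ f) * gL ≤ gF * v f := by
  obtain ⟨z, h1, -, h2⟩ := hL.1
  have h3 := hF.2 (Fin.cons f fun i => algebraMap L F (z i))
  rw [h, map_mul, Fin.prod_univ_succ] at h3
  simp only [Fin.cons_zero, Fin.cons_succ, Valuation.comap_apply] at h2 h3
  rw [h2, ← mul_assoc, ← mul_assoc] at h3
  exact (mul_le_mul_iff_left₀ (zero_lt_iff.2 (Finset.prod_ne_zero_iff.2 fun i _ => by
    simpa using h1 i))).1 h3

theorem LKv.exists_eq {K ι Γ : Type*} [Field K] [Algebra k K] [Fintype ι] [DecidableEq ι]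
    [LinearOrderedCommGroupWithZero Γ] {v : Valuation K Γ} {b : Basis ι K Ω[K⁄k]} {g : Γ}
    (h : LKv v b g) : ∃ s : K, s ≠ 0 ∧ v s = g := by
  obtain ⟨z, h1, h2, h3⟩ := h.1
  have h4 : ∏ i, z i ≠ 0 := Finset.prod_ne_zero_iff.2 fun i _ => h1 i
  refine ⟨jb b z / ∏ i, z i, div_ne_zero h2 h4, ?_⟩
  rw [map_div₀, h3, ← map_prod, mul_div_cancel_right₀ _ (v.ne_zero_iff.2 h4)]

/-- **the ruled lemma**, in terms of values -/
theorem rl_val [Algebra.EssFiniteType k L] [Algebra.EssFiniteType k F]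
    (b : Basis (Fin n) L Ω[L⁄k]) (b' : Basis (Fin (n + 1)) F Ω[F⁄k]) {t : F}
    (ht : Transcendental L t) (htop : L⟮t⟯ = ⊤) (h0 : δ ≠ 0) (h : Rel b b' δ) {N : ℕ}
    (hN : N ≠ 0) {g : F} (hg : g ≠ 0) (hor : Hor δ N g) :
    ∃ r : ℕ, 0 < r ∧ ∃ φ : L, φ ≠ 0 ∧ ∀ (v : Valuation F ℤᵐ⁰) (gF gL : ℤᵐ⁰),
      (∀ c : k, v (algebraMap k F c) ≤ 1) → LKv v b' gF → LKv (v.comap (algebraMap L F)) b gL →
      v (algebraMap L F φ) * v g ^ r * gL ^ (N * r) ≤ gF ^ (N * r) := by
  have : CharZero L := charZero_of_injective_algebraMap (algebraMap k L).injective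
  obtain ⟨r, hr, φ, hφ, h1⟩ := exists_inv_der ht htop h0 hN hg hor
  refine ⟨r, hr, φ, hφ, fun v gF gL hv hF hL => ?_⟩
  have e := Valuation.isEquiv_valuation_valuationSubring v
  obtain ⟨s, -, rfl⟩ := hF.exists_eq
  obtain ⟨u, hu, rfl⟩ := hL.exists_eq
  have hu' : 0 < v (algebraMap L F u) := zero_lt_iff.2 (by simpa using hu)
  have h2 := h1 v.valuationSubring ((s / algebraMap L F u) ^ N) (fun m hm => ?_) fun f => ?_
  · rw [← map_pow, ← map_pow, ← map_mul, ← e, map_mul, map_pow, map_pow, map_pow, map_div₀,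
      ← pow_mul, div_pow, le_div_iff₀ (pow_pos hu' _)] at h2
    exact h2
  · rw [← e.eq_one_iff_eq_one]
    refine le_antisymm (natCast_mem v.valuationSubring m) ?_
    have h3 := hv (m : k)⁻¹
    have : CharZero F := charZero_of_injective_algebraMap (algebraMap k F).injective
    rwa [map_inv₀, map_inv₀, map_natCast, inv_le_one₀ (zero_lt_iff.2 (by simpa using hm))] at h3
  · rw [map_pow, ← mul_pow, ← map_mul]
    refine pow_le_pow_left' ((e _ _).1 ?_) N
    rw [map_mul, map_div₀, div_mul_eq_mul_div]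
    exact (le_div_iff₀ hu').2 (h.le hF hL f)

end Rel

end Crest.Agent.X262.Rl57
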