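import Crest.Agent.X262.Rl57.Th
import Crest.Agent.X262.Geo.Adj
import Crest.Agent.X262.Gfm18.Base
import Crest.Agent.X262.Mod79.Bp

/-!
# Row 262, Lemma A (helper57), part 1: the ruled core

`F = L(t)`, `p_g(L) > 0`, `G - s K` effective on the `H`-model, `-G` ample over the `h`-model whose
function field is a proper subfield of `L`.  Then `-G` has degree at most `s` on the generic fibre.
-/

set_option autoImplicit false
set_option linter.unusedSectionVars false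

open WithZero IntermediateField Module
open scoped KaehlerDifferential

namespace Crest.Agent.X262.Rl57

open Crest.Agent.X277 Crest.Agent.X277.BD Crest.Agent.X277.Pst Crest.Agent.X277.Jet
open Crest.Agent.X277.Neg (nv nv_triv IsNv isNv_nv)
open Crest.Agent.X262.Geo (od)
open Crest.Agent.X262.Mod
open Crest.Agent.X262.Loc (Pt rzP ordP kC cf)
open List (replicate)

section Gen

variable {k L F : Type} [Field k] [Field L] [Field F] [Algebra k L] [Algebra k F] [Algebra L F]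
  [IsScalarTower k L F] [CharZero k] [Algebra.EssFiniteType k L] [Algebra.EssFiniteType k F]
  {H h a : BD k F}

local notation "αL" => IsScalarTower.toAlgHom k L F

/-- a positive functional which kills `h` but not the poles of `x` -/
theorem exists_ell (hH : IsMod H) (hh : h.Free) (hc : Car H h) {x : F} (hx : x ∉ cf h)
    (h0 : 0 ≤ a) (ha : x ∈ a.Sec) : ∃ l : List (BD k F), (∀ y ∈ l, Nef y ∧ Car H y) ∧
      bnum (h :: l) = 0 ∧ 0 < bnum (a :: l) := by
  have h1 := Gfm.isMod_up (M := cf h) hH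
  obtain ⟨V, hV, h2⟩ : ∃ V, Prm (up (cf h) H) V ∧ 0 < od V (up (cf h) a) := by
    by_contra hn
    push Not at hn
    refine hx (Gfm.mem_cf_of_Sec_zero (Car.zero.mem_Sec h1 fun V hV => ?_))
    exact (up_mem_Sec ha V).trans ((Geo.od_le_iff hV.dvs).1 ((hn V hV).trans_eq (map_zero _).symm))
  obtain ⟨d, hd⟩ := Geo.dim_pos_of_ne hV.1
  refine ⟨replicate d H ++ replicate (dim k (cf h)) h, fun y hy => ?_, ?_, ?_⟩
  · rcases List.mem_append.1 hy with hy | hy <;> rw [List.eq_of_mem_replicate hy]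
    exacts [⟨hH.free.nef, car_self hH.free⟩, ⟨hh.nef, hc⟩]
  · rw [← List.cons_append, Loc.bnum_cf hh, List.map_cons, (Loc.lin_up_cf hh).bnum_eq, bnum_zero,
      mul_zero]
  · rw [← List.cons_append, Loc.bnum_cf hh, List.map_cons, List.map_replicate]
    exact mul_pos (Loc.dl_pos hh) ((mul_pos h2 (Geo.dg_pos h1 hV hd)).trans_le
      (Geo.od_mul_le (up_nonneg h0) (fun y hy => List.eq_of_mem_replicate hy ▸ h1.free.nef) hV.dvs))

theorem od_pb_hor {V : RZ k F} (hV : Dvs V) (h : ∀ c : L, algebraMap L F c ∈ V.1) (y : BD k L) :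
    od V (pb αL y) = 0 := by
  have h1 := val_up (pb αL y) (⟨V.1, h⟩ : RZ L F)
  rw [up_pb _ fun _ => rfl] at h1
  exact (Geo.od_eq_zero hV).2 h1.symm

theorem od_dn (P : Pt L F) (y : BD k F) : od ((rzP P).dn k) y = ordP P (up L y) := by
  have hk : ∀ c : k, P.v (algebraMap k F c) ≤ 1 := fun c => by
    rw [IsScalarTower.algebraMap_apply k L F]
    exact P.le _
  exact (Geo.od_rz hk (Loc.unif_pt P) ▸ ord_up P.le hk y :).symm

theorem dvs_dn (hd : dim k F = dim k L + 1) (P : Pt L F) : Dvs ((rzP P).dn k) := by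
  obtain ⟨H₀, h1⟩ := exists_isMod k L
  obtain ⟨H, -, h2⟩ := exists_mod_car (pb αL H₀)
  exact (prm_of_hor hd h1 h2 (V := (rzP P).dn k) (rzP P).2 (Loc.rzP_ne_top P)).dvs

end Gen

open Crest.Agent.X277.Lef Crest.Agent.X277.BD.Br

theorem exists_smooth' {K : Type} [Field K] [Algebra ℂ K] [Algebra.EssFiniteType ℂ K]
    {V : RZ ℂ K} (hV : Dvs V) : ∃ W : PModel ℂ K, Prm (oP W) V := by
  obtain ⟨c, -, hc⟩ := Geo.exists_prm hV
  obtain ⟨W, hW⟩ := exists_smooth (H := c)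
  exact ⟨W, hW V hc⟩

variable {L F : Type} [Field L] [Field F] [Algebra ℂ L] [Algebra ℂ F] [Algebra L F]
  [IsScalarTower ℂ L F] [Algebra.EssFiniteType ℂ L] [Algebra.EssFiniteType ℂ F]
  [Algebra.EssFiniteType L F] [CharZero L] {n : ℕ}

local notation "αL" => IsScalarTower.toAlgHom ℂ L F

/-- if the degree is small, then the horizontal part is a boundary without exceptional primes -/
theorem hor_of_deg (b : Basis (Fin n) L Ω[L⁄ℂ]) (b' : Basis (Fin (n + 1)) F Ω[F⁄ℂ]) {t : F}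
    (ht : Transcendental L t) (htop : L⟮t⟯ = ⊤) {H G : BD ℂ F} {s : ℕ}
    (hT : ∀ (W : PModel ℂ F) V, Prm (oP W) V → Prm H V → s * od V (kP W b') ≤ od V G)
    (hE : ∀ (W : PModel ℂ F) V, Prm (oP W) V → ¬ Prm H V → (∀ c : L, algebraMap L F c ∈ V.1) →
      s * (od V (kP W b') + 1) ≤ od V G) (hc : s < bnum [up L (-G)]) {V : RZ ℂ F}
    (h1 : ∀ c : L, algebraMap L F c ∈ V.1) (h2 : V.1 ≠ ⊤) :
    Prm H V ∧ ∃ W : PModel ℂ F, Prm (oP W) V ∧ od V G ≤ s * (od V (kP W b') + 1) := by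
  have hd := dim_eq_one b b'
  have hd' : dim ℂ F = dim ℂ L + 1 := by rw [Geo.dim_basis b, Geo.dim_basis b']
  obtain ⟨Z⟩ : Nonempty (Fr L F (Fin 1)) := hd ▸ exists_fr L F
  obtain ⟨δ, h0, hδ⟩ := exists_rel b b' (Z.reindex (Equiv.ofUnique Unit (Fin 1)))
  have h3 : ∀ P : Pt L F, ∃ W : PModel ℂ F, Prm (oP W) ((rzP P).dn ℂ) ∧
      od ((rzP P).dn ℂ) G - s * od ((rzP P).dn ℂ) (kP W b') = ordP P (up L G - s • kC δ) := by
    intro P
    obtain ⟨W, hW⟩ := exists_smooth' (dvs_dn hd' P)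
    obtain ⟨π, hπ⟩ := Loc.unif_pt P
    have h3 := kv_kP b' hW
    rw [show nv ((rzP P).dn ℂ) = P.v from Geo.nv_rz (fun c => ((rzP P).dn ℂ).2 c) ⟨π, hπ⟩] at h3
    have h4 := h3.unique (kv_hor hδ P.le hπ)
    rw [Loc.v_der_unif hd h0 hπ, exp_inj] at h4
    exact ⟨W, hW, by rw [h4, od_dn, map_sub, map_nsmul, nsmul_eq_mul]⟩
  have h4 : 0 ≤ up L G - s • kC δ := (Loc.le_iff_ordP hd).2 fun P => by
    obtain ⟨W, h4, h5⟩ := h3 P
    rw [map_zero, ← h5, sub_nonneg]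
    by_cases h6 : Prm H ((rzP P).dn ℂ)
    · exact hT W _ h4 h6
    · exact le_trans (by nlinarith [Int.natCast_nonneg s]) (hE W _ h4 h6 (rzP P).2)
  obtain ⟨P, hP⟩ := Loc.exists_pt_of_ne hd (V := ⟨V.1, h1⟩) h2
  obtain rfl : V = (rzP P).dn ℂ := Subtype.ext (congrArg Subtype.val hP :)
  obtain ⟨W, h5, h6⟩ := h3 P
  have h7 := Loc.ordP_le_deg hd h4 P
  have h8 := Loc.degP_pos' hd P
  have h9 : 0 ≤ ordP P (up L G - s • kC δ) := ord_nonneg h4
  rw [bnum_sub, bnum_nsmul, Loc.deg_kC_rat ht htop h0] at h7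
  rw [map_neg, bnum_neg] at hc
  have h10 : ordP P (up L G - s • kC δ) < s := by nlinarith
  refine ⟨by_contra fun h11 => ?_, W, h5, by linarith⟩
  linarith [hE W _ h5 h11 h1]

/-- **the ruled core of Lemma A** -/
theorem core (b : Basis (Fin n) L Ω[L⁄ℂ]) (b' : Basis (Fin (n + 1)) F Ω[F⁄ℂ]) {t : F}
    (ht : Transcendental L t) (htop : L⟮t⟯ = ⊤) {Q : PModel ℂ L} (hQ : Eff (kP Q b))
    {H G h : BD ℂ F} {h₀ : BD ℂ L} {s q l : ℕ} (hH : IsMod H) (hh : h.Free) (hc : Car H h)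
    (h0 : Lin h (pb αL h₀)) {x : L} (hx : algebraMap L F x ∉ cf h) (hs : 0 < s) (hq : 0 < q)
    (hM : (l • h - q • G - H).Free)
    (hT : ∀ (W : PModel ℂ F) V, Prm (oP W) V → Prm H V → s * od V (kP W b') ≤ od V G)
    (hE : ∀ (W : PModel ℂ F) V, Prm (oP W) V → ¬ Prm H V → (∀ c : L, algebraMap L F c ∈ V.1) →
      s * (od V (kP W b') + 1) ≤ od V G) : bnum [up L (-G)] ≤ s := by
  by_contra hn
  push Not at hn
  obtain ⟨j, e, -, he, hf, -⟩ := hH.exists_exc (pb αL (pr ℂ x ⊔ 0))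
  have h1 : ∀ V, Prm H V → od V (((j + 1) * q) • G + e) = ((j + 1) * q : ℕ) * od V G :=
    fun V hV => by
      rw [map_add, map_nsmul, nsmul_eq_mul, Geo.eqOn_iff.1 he V hV, map_zero, add_zero]
  obtain ⟨R, hR, φ, hφ, h2⟩ := rl b b' ht htop (N := (j + 1) * q * s) (by positivity)
    (G := ((j + 1) * q) • G + e) (A := ((j + 1) * l) • h₀ - (pr ℂ x ⊔ 0))
    ((hM.nsmul (j + 1)).add (hf.add hH.free))
    (by
      rw [map_sub, map_nsmul, sub_eq_add_neg (_ • pb αL h₀)]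
      convert (h0.nsmul ((j + 1) * l)).add (Lin.rfl (a := -pb αL (pr ℂ x ⊔ 0))) using 1
      module)
    fun V h2 h3 => by
      obtain ⟨h4, W, h5, h6⟩ := hor_of_deg b b' ht htop hT hE hn h2 h3
      have h7 := hT W V h5 h4
      have h8 : (0 : ℤ) ≤ ((j + 1) * q : ℕ) := Int.natCast_nonneg _
      refine ⟨W, h5, ?_⟩
      rw [h1 V h4, Nat.cast_mul _ s, mul_assoc, mul_assoc]
      exact ⟨mul_le_mul_of_nonneg_left h7 h8, mul_le_mul_of_nonneg_left h6 h8⟩
  obtain ⟨ll, h3, h4, h5⟩ := exists_ell hH hh hc hx (pb_nonneg_iff.2 le_sup_right)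
    (pb_mem_Sec (α := αL) (Sec_mono le_sup_left (mem_Sec_pr x)))
  obtain ⟨W, hW⟩ := exists_smooth (H := H)
  have h6 := Geo.bnum_nonneg_on hH.free (a := pb αL (R • (((j + 1) * l) • h₀ - (pr ℂ x ⊔ 0)) -
    pr ℂ φ - (R * ((j + 1) * q * s)) • kP Q b)) (Geo.leOn_iff.2 fun V hV => ?_) h3
  · have h7 := (hQ.pb αL).bnum_nonneg fun y hy => (h3 y hy).1
    simp only [map_sub, map_nsmul, pb_pr _ φ, bnum_sub, bnum_nsmul, bnum_pr, ← h0.bnum_eq, h4,
      mul_zero, zero_sub, sub_zero] at h6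
    have h8 : (0 : ℤ) < R := by exact_mod_cast hR
    nlinarith [mul_pos h8 h5, mul_nonneg (Int.natCast_nonneg (R * ((j + 1) * q * s))) h7]
  · rw [map_zero]
    by_cases h6 : ∀ c : L, algebraMap L F c ∈ V.1
    · exact (od_pb_hor hV.dvs h6 _).ge
    obtain ⟨h7, m, hm, h8⟩ := exists_ram hV.dvs h6
    obtain ⟨Q', h9⟩ := exists_smooth' h7
    have h10 := h2 W Q' V _ m (hW V hV) h9 h8
    have h11 := hT W V (hW V hV) hV
    have h12 := Geo.od_kP_le (b := b) Q h9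
    have h13 : (1 : ℤ) ≤ m := by exact_mod_cast hm
    have h14 : (0 : ℤ) ≤ ((j + 1) * q : ℕ) := Int.natCast_nonneg _
    rw [od_pb hV.dvs h7 h8, map_sub _ (_ - _), map_nsmul, nsmul_eq_mul, Nat.cast_mul R]
    rw [h1 V hV, Nat.cast_mul _ s] at h10
    refine le_trans (le_trans ?_ h10) (mul_le_mul_of_nonneg_left (sub_le_sub_left ?_ _) (by omega))
    · refine mul_nonneg (Int.natCast_nonneg R) ?_
      nlinarith [mul_nonneg h14 (sub_nonneg.2 h11),
        mul_nonneg (mul_nonneg h14 (Int.natCast_nonneg s)) (sub_nonneg.2 h13)]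
    · rw [← Nat.cast_mul _ s]
      exact mul_le_mul_of_nonneg_left h12 (by positivity)

end Crest.Agent.X262.Rl57
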