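import Crest.Agent.X262.Rl57.LemA
import Crest.Agent.X262.Sub14.End
import Crest.Agent.X262.Surf.K3n

/-!
# Row 262, SUB (helper57), part 1: the ruled threefold over the surface

`R = S(t)`, `G + D ∼ pb (a + p)`, `G - s K` effective, `D` free of degree `2 s` on the fibre.

* `psi`  : a pull-back whose horizontal part is divisible by `s`;
* `fib1`, `fib2` : the inequalities `I1`, `I2` of `Bnd.SubD`.
-/

set_option autoImplicit false
set_option linter.unusedSectionVars false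

open IntermediateField Module
open scoped KaehlerDifferential

namespace Crest.Agent.X262.Rl57

open Crest.Agent.X277 Crest.Agent.X277.BD Crest.Agent.X277.Pst Crest.Agent.X277.Lef
open Crest.Agent.X277.BD.Br (On oP kP)
open Crest.Agent.X277.Neg (nv)
open Crest.Agent.X262.Geo (od)
open Crest.Agent.X262.Mod
open Crest.Agent.X262.Loc (Pt rzP ordP dvB dvC)
open Crest.Agent.X262.Sub14 (Th)

variable {S R : Type} [Field S] [Field R] [Algebra ℂ S] [Algebra ℂ R] [Algebra S R]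
  [IsScalarTower ℂ S R] [Algebra.EssFiniteType ℂ S] [Algebra.EssFiniteType ℂ R]
  [Algebra.EssFiniteType S R] [CharZero S] {t : R} {s : ℕ} {H G D B : BD ℂ R} {a p y : BD ℂ S}

local notation "αS" => IsScalarTower.toAlgHom ℂ S R

theorem mem_of_alg (ht : Transcendental S t) (htop : S⟮t⟯ = ⊤) {x : R} (hx : IsAlgebraic S x) :
    ∃ c, algebraMap S R c = x := by
  have h : x ∈ algebraicClosure S R := mem_algebraicClosure_iff.2 hx
  rwa [Loc.closed_of_cst (Loc.cst_rat ht htop), mem_bot] at h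

/-- a pull-back whose horizontal part is divisible by `s` -/
theorem psi (ht : Transcendental S t) (htop : S⟮t⟯ = ⊤) (hs : 0 < s) (hl : Lin B (pb αS y))
    (h : ∀ P : Pt S R, (s : ℤ) ∣ ordP P (up S B)) :
    ∃ (y' : BD ℂ S) (χ : R), Lin y' y ∧ pb αS y' = B - s • pr ℂ χ := by
  have hd := Loc.dim_rat ht htop
  obtain ⟨ψ, hψ, rfl⟩ := hl
  simp only [map_add, up_pb αS fun _ => rfl, zero_add, up_pr] at h
  let c := dvB hd ((dvC hd (pr S ψ)).mapRange (· / (s : ℤ)) (by simp))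
  have h1 : s • c = pr S ψ := Loc.ext_ordP hd fun P => by
    rw [map_nsmul, Loc.ordP_dvB, Finsupp.mapRange_apply, Loc.dvC_apply, nsmul_eq_mul,
      Int.mul_ediv_cancel' (h P)]
  have h2 : bnum [c] = 0 := by
    have h2 := bnum_pr (k := S) ψ []
    rw [← h1, bnum_nsmul] at h2
    exact (mul_eq_zero.1 h2).resolve_left (by exact_mod_cast hs.ne')
  have h3 := Loc.finrank_gn0 hd (Loc.gn_rat ht htop) (a := c) (by
    rw [h2, Loc.cst_rat ht htop]
    norm_num)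
  rw [h2, Loc.cst_rat ht htop] at h3
  obtain ⟨χ, hχ, h4⟩ := Loc.lin_zero_of_eff hd (eff_iff_finrank.2 (by omega)) h2
  have h5 : ψ / χ ^ s ≠ 0 := div_ne_zero hψ (pow_ne_zero _ hχ)
  obtain ⟨γ, hγ⟩ := mem_of_alg ht htop (Gfm.isAlg_of_Sec_zero ((pr_le_iff h5).1 (by
    rw [pr_div hψ (pow_ne_zero _ hχ), pr_pow hχ, ← h1, h4, zero_add, sub_self])))
  refine ⟨y + pr ℂ γ, χ, ⟨γ, fun h0 => h5 (by rw [← hγ, h0, map_zero]), rfl⟩, ?_⟩
  rw [map_add, pb_pr, IsScalarTower.coe_toAlgHom', hγ, pr_div hψ (pow_ne_zero _ hχ), pr_pow hχ,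
    add_sub_assoc]

variable (ht : Transcendental S t) (htop : S⟮t⟯ = ⊤) (b' : Basis (Fin (2 + 1)) R Ω[R⁄ℂ])
  (hs : 0 < s) (hH : IsMod H) (ha : IsMod a) (hc : Car H (pb (IsScalarTower.toAlgHom ℂ S R) a))
  (hD : D.Free) (hl : Lin (G + D) (pb (IsScalarTower.toAlgHom ℂ S R) (a + p)))
  (hd : bnum [up S D] = 2 * s) (hG : Th b' H G s)
include ht htop hs hH ha hc hD hl hd hG

theorem fib0 (c : Basis (Fin 2) S Ω[S⁄ℂ]) : ∃ r : ℕ, 0 < r ∧ ∃ T : BD ℂ S,
    Lin T (r • (a + p)) ∧ Th c a T (r * s) ∧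
      ∀ (Q : PModel ℂ S) (V : RZ ℂ R) (w : RZ ℂ S) (m : ℕ), Prm H V → Prm (oP Q) w →
        (∀ x : S, nv V (algebraMap S R x) = nv w x ^ m) →
        (r * s : ℕ) * ((m : ℤ) - 1) ≤ m * (od w T - (r * s : ℕ) * od w (kP Q c)) := by
  have h1 : dim ℂ R = dim ℂ S + 1 := by rw [Geo.dim_basis c, Geo.dim_basis b']
  have h2 := (hl.up S).bnum_eq []
  rw [up_pb αS fun _ => rfl, bnum_zero, map_add, bnum_add, hd] at h2
  obtain ⟨r, hr, T, h3, h4, h5⟩ := rl_th c b' ht htop hs.ne' hD hl hH ha hc hG fun W V h3 h4 => by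
    obtain ⟨-, W', h5, h6⟩ := hor_of_deg c b' ht htop hG
      (fun W V h5 h6 h7 => absurd (prm_of_hor h1 ha hc h7 h5.1) h6)
      (by rw [map_neg, bnum_neg]; omega) h4 h3.1
    rwa [Geo.od_kP_eq h3 h5]
  obtain ⟨W, hW⟩ := exists_smooth (H := H)
  refine ⟨r, hr, T, h3, h4, fun Q V w m h6 h7 h8 => le_trans ?_ (h5 W Q V w m (hW V h6) h7 h8)⟩
  rw [Nat.cast_mul, mul_assoc]
  exact mul_le_mul_of_nonneg_left (by linarith [hG W V (hW V h6) h6]) (Int.natCast_nonneg r)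

theorem fib1 (Q : PModel ℂ S) (c : Basis (Fin 2) S Ω[S⁄ℂ]) {x : BD ℂ S} (h1 : x ∈ On Q)
    (h2 : Nef x) (h3 : Car a x) : s * bnum [kP Q c, x] ≤ bnum [a + p, x] := by
  obtain ⟨r, hr, T, h4, h5, -⟩ := fib0 ht htop b' hs hH ha hc hD hl hd hG c
  have h6 := Sub14.i1 c ha h5 h2 h3 Q h1
  rw [h4.bnum_eq, bnum_nsmul, Nat.cast_mul, mul_assoc] at h6
  exact le_of_mul_le_mul_left h6 (by exact_mod_cast hr)

theorem fib2 {δ : ℕ} (k : Top.K3 S δ) (hp : Car a p) (hB : Lin B (pb αS (p - a)))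
    (hi : ∀ V, Prm H V → (s : ℤ) ∣ od V B) (h0 : NumZ p) : (s * δ : ℤ) ≤ 4 * bnum [a, k.L] := by
  obtain ⟨r, hr, T, h1, h2, h3⟩ := fib0 ht htop b' hs hH ha hc hD hl hd hG k.b
  have h4 : 0 < bnum [a, k.L] := by
    have h4 : Big k.L := (Surf.K3n.nef_L k).big_iff.2 (by
      rw [Surf.K3n.dim_two k]
      exact k.L_sq ▸ Int.natCast_pos.2 (Surf.K3n.d_pos k))
    exact bnum_pos (by simp [Surf.K3n.dim_two k])
      (by simp [ha.free.nef, ha.big, h4, Surf.K3n.nef_L k])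
  have h5 : (0 : ℤ) < r := by exact_mod_cast hr
  by_cases h6 : ∃ w, Prm (oP k.P) w ∧ (¬ Prm a w ∨
      ((r * s : ℕ) : ℤ) ≤ 3 * (od w T - (r * s : ℕ) * od w (kP k.P k.b)))
  · have h7 := Sub14.i2 k ha ((((car_self ha.free).add hp).nsmul r).of_lin h1) (mul_pos hr hs) h2 h6
    rw [h1.bnum_eq, bnum_nsmul, bnum_add, h0, add_zero, Nat.cast_mul, mul_assoc,
      mul_left_comm 3] at h7
    linarith [le_of_mul_le_mul_left h7 h5]
  push Not at h6
  have h7 : dim ℂ R = dim ℂ S + 1 := by rw [Geo.dim_basis k.b, Geo.dim_basis b']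
  obtain ⟨y, χ, h8, h9⟩ := psi ht htop hs hB fun P => by
    rw [← od_dn]
    exact hi _ (prm_of_hor h7 ha hc (V := (rzP P).dn ℂ) (rzP P).2 (Loc.rzP_ne_top P))
  have h10 := Sub14.i3 k y s fun w hw => by
    obtain ⟨h10, h11⟩ := h6 w hw
    obtain ⟨V, h12, rfl⟩ := exists_prm_over hH ha hc h10
    obtain ⟨-, m, hm, h13⟩ := exists_ram (L := S) h12.dvs
      fun h13 => h10.1 (eq_top_iff.2 fun x _ => h13 x)
    have h14 := h3 k.P V _ m h12 hw h13
    have h15 : (0 : ℤ) < (r * s : ℕ) := by exact_mod_cast mul_pos hr hs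
    obtain rfl : m = 1 := by
      by_contra h16
      have h17 : (2 : ℤ) ≤ m := by omega
      nlinarith [mul_lt_mul_of_pos_left h11 (by omega : (0 : ℤ) < m)]
    have h16 := od_pb h12.dvs hw.dvs h13 y
    rw [h9, Nat.cast_one, one_mul, map_sub, map_nsmul, nsmul_eq_mul] at h16
    exact h16 ▸ (hi V h12).sub (dvd_mul_right _ _)
  rw [h8.bnum_eq, bnum_sub, h0, zero_sub, dvd_neg] at h10
  linarith [Int.le_of_dvd h4 h10]

end Crest.Agent.X262.Rl57
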