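import Crest.Agent.X262.Rl57.BD
import Crest.Agent.X277.Unf.Main

/-!
# Row 262, RL (helper57), part 4: the ruled lemma on models

`k ≤ L ≤ F`, the `H`-model of `F` maps to the `H₀`-model of `L`.

* `exists_prm_over` : over every prime of the base there is a prime of the total space;
* `prm_of_hor` : for a curve `F / L` every horizontal valuation is a prime;
* `rl_th` : an effective boundary upstairs gives an effective boundary downstairs.
-/

set_option autoImplicit false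
set_option linter.unusedSectionVars false

open WithZero IntermediateField Module
open scoped KaehlerDifferential

namespace Crest.Agent.X262.Rl57

open Crest.Agent.X277 Crest.Agent.X277.BD Crest.Agent.X277.Pst Crest.Agent.X277.Jet
open Crest.Agent.X277.Neg (nv nv_triv IsNv isNv_nv le_loc)
open Crest.Agent.X262.Geo (od)
open Crest.Agent.X262.Mod

variable {k L F : Type} [Field k] [Field L] [Field F] [Algebra k L] [Algebra k F] [Algebra L F]
  [IsScalarTower k L F] [CharZero k] [Algebra.EssFiniteType k L] [Algebra.EssFiniteType k F]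
  {H : BD k F} {H₀ : BD k L}

local notation "αL" => IsScalarTower.toAlgHom k L F

theorem map_mem_loc {V : RZ k F} {x : L} (hx : x ∈ loc H₀ (rsL L V)) :
    algebraMap L F x ∈ loc (pb αL H₀) V := by
  obtain ⟨m, g, h1, h2, h3⟩ := hx
  refine ⟨m, algebraMap L F g, ?_, ?_, ?_⟩ <;> rw [← map_nsmul]
  · exact pb_mem_Sec h1
  · exact (val_mp h2).symm
  · rw [← map_mul]
    exact pb_mem_Sec h3

/-- over every prime of the base there is a prime of the total space -/
theorem exists_prm_over (hH : IsMod H) (hH₀ : IsMod H₀) (hc : Car H (pb αL H₀)) {w : RZ k L}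
    (hw : Prm H₀ w) : ∃ V, Prm H V ∧ rsL L V = w := by
  classical
  by_contra hn
  push Not at hn
  obtain ⟨π, hπ⟩ := Geo.nv_unif hw.dvs
  have h0 : algebraMap L F π⁻¹ ≠ 0 := by simpa using ne_of_unif hπ
  let T := (Geo.fin_od hH (pr k (algebraMap L F π⁻¹))).toFinset.filter
    fun V => algebraMap L F π⁻¹ ∉ V.1
  have hT : ∀ V, Prm H V → algebraMap L F π⁻¹ ∉ V.1 → V ∈ T := fun V h1 h2 => by
    refine Finset.mem_filter.2 ⟨(Set.Finite.mem_toFinset _).2 ⟨h1, fun h3 => h2 ?_⟩, h2⟩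
    rw [Geo.od_eq_zero h1.dvs, val_pr h0] at h3
    exact RZ.le_one_iff.1 h3.le
  have h1 : ∀ V ∈ T, ¬ Gz H₀ w (rsL L V) := fun V hV h => by
    obtain ⟨h2, h3⟩ := Finset.mem_filter.1 hV
    refine hn V ((Set.Finite.mem_toFinset _).1 h2).1 (Subtype.ext ((isNv_nv hw.dvs).eq_of_le
      (fun h4 => h3 ?_) fun x hx => (gz_iff hH₀.free).1 h x (le_loc hH₀.free hH₀.bir hw hx)).symm)
    have h5 : π⁻¹ ∈ (rsL L V).1 := h4 ▸ ValuationSubring.mem_top _
    exact h5
  simp only [Gz, not_forall] at h1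
  choose! m g h2 h3 h4 using h1
  have h5 : ∏ V ∈ T, g V ∈ ((∑ V ∈ T, m V) • H₀).Sec := by
    rw [← Finset.sum_nsmul_assoc]
    exact prod_mem_Sec T h2
  have h6 : w.v (∏ V ∈ T, g V) = ((∑ V ∈ T, m V) • H₀).val w := by
    rw [← Finset.sum_nsmul_assoc, val_sum, map_prod]
    exact Finset.prod_congr rfl h3
  set G := ∏ V ∈ T, g V with hG
  set a := (∑ V ∈ T, m V) • H₀ with ha
  have h7 : algebraMap L F G ≠ 0 := by simpa using ne_of_val h6
  have h8 : ∀ V ∈ T, V.v (algebraMap L F G) < (pb αL a).val V := fun V hV => by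
    refine lt_of_le_of_ne (pb_mem_Sec h5 V) fun h => h4 V hV ?_
    have h9 : (rsL L V).v G = a.val (rsL L V) := v_eq_val_mp.1 h
    rw [hG, ha, ← Finset.sum_nsmul_assoc, val_sum, map_prod] at h9
    by_contra h10
    exact (Finset.prod_lt_prod (fun U hU => RZ.pos (ne_of_val (h3 U hU)))
      (fun U hU => h2 U hU _) ⟨V, hV, lt_of_le_of_ne (h2 V hV _) h10⟩).ne h9
  obtain ⟨N, hN⟩ := (T.image fun V => (log (nv V (algebraMap L F π⁻¹))).toNat).exists_le
  have h9 : algebraMap L F (π⁻¹ * G ^ N) ∈ (pb αL (N • a)).Sec := by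
    rw [map_nsmul]
    refine Geo.mem_Sec_of_od hH ((ha ▸ map_nsmul (pb αL) _ H₀ ▸ hc.nsmul _ :
      Car H (pb αL a)).nsmul N) fun V hV => ?_
    have h10 : log (nv V (algebraMap L F G)) ≤ od V (pb αL a) := by
      rw [← exp_le_exp, exp_log ((nv V).ne_zero_iff.2 h7)]
      exact Geo.le_exp_od (pb_mem_Sec h5)
    rw [map_mul, map_mul, map_pow, map_pow, ← exp_log ((nv V).ne_zero_iff.2 h7),
      ← exp_log ((nv V).ne_zero_iff.2 h0), ← exp_nsmul, ← exp_add, exp_le_exp, map_nsmul,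
      nsmul_eq_mul, nsmul_eq_mul]
    by_cases h11 : algebraMap L F π⁻¹ ∈ V.1
    · rw [← Geo.nv_le_one hV.dvs, ← exp_log ((nv V).ne_zero_iff.2 h0), ← exp_zero,
        exp_le_exp] at h11
      nlinarith [Int.natCast_nonneg N]
    · have h12 := hN _ (Finset.mem_image_of_mem _ (hT V hV h11))
      have h14 : log (nv V (algebraMap L F G)) ≠ od V (pb αL a) := fun h => (h8 V (hT V hV h11)).ne
        ((Geo.eq_od_iff hV.dvs).1 (by rw [← h, exp_log ((nv V).ne_zero_iff.2 h7)]))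
      have h15 : log (nv V (algebraMap L F G)) + 1 ≤ od V (pb αL a) := by omega
      have h16 : log (nv V (algebraMap L F π⁻¹)) ≤ N := by omega
      nlinarith [Int.natCast_nonneg N]
  have h10 := pb_mem_Sec_iff.1 (show αL _ ∈ _ from h9) w
  rw [map_mul, map_pow, h6, val_nsmul N a, mul_le_iff_le_one_left (pow_pos (val_pos _ _) _),
    RZ.le_one_iff, ← Geo.nv_le_one hw.dvs, map_inv₀, hπ, ← exp_neg, ← exp_zero, exp_le_exp] at h10
  omega

/-- for a curve over `L` every horizontal valuation is a prime -/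
theorem prm_of_hor (hd : dim k F = dim k L + 1) (hH₀ : IsMod H₀) (hc : Car H (pb αL H₀))
    {V : RZ k F} (hV : ∀ c : L, algebraMap L F c ∈ V.1) (h0 : V.1 ≠ ⊤) : Prm H V := by
  have h1 : ∀ c : L, c ≠ 0 → (rsL L V).v c = 1 := fun c hc => by
    refine le_antisymm (RZ.le_one_iff.2 (hV c)) ?_
    have h2 := RZ.le_one_iff.2 (show c⁻¹ ∈ (rsL L V).1 from hV c⁻¹)
    rwa [map_inv₀, inv_le_one₀ (RZ.pos hc)] at h2
  obtain ⟨Y⟩ := exists_fr k L
  refine ⟨h0, ?_⟩
  rw [show Gj.dm k F - 1 = finrank L Ω[L⁄k] from congrArg (· - 1) hd]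
  refine ⟨fun i => algebraMap L F (Y.y i), fun i => hc.loc_le V (map_mem_loc ?_), fun i => hV _,
    fun p hp => ?_⟩
  · obtain ⟨m, g, h2, h3, h4⟩ := hH₀.bir (Y.y i)
    refine ⟨m, g, h2, ?_, h4⟩
    rw [← v_gen, h1 _ h3, h1 _ (gen_ne _ _)]
  · have h2 := (v_cm_eq_iff _ (alg_ov αL) (W := V)).1 ((h1 _ fun h =>
      hp (algebraicIndependent_iff.1 Y.ai p h)).trans (map_one _).symm)
    rw [map_one, map_one] at h2
    exact (congrArg V.v (MvPolynomial.aeval_algebraMap_apply F Y.y p)).trans h2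

section Smooth

open Crest.Agent.X277.Lef Crest.Agent.X277.BD.Br

theorem exists_smooth {K : Type} [Field K] [Algebra ℂ K] [Algebra.EssFiniteType ℂ K]
    {H : BD ℂ K} : ∃ W : PModel ℂ K, ∀ V, Prm H V → Prm (oP W) V := by
  obtain ⟨W, hW⟩ := Unf.exists_on {H}
  exact ⟨W, fun V => (Sark27.car_of_on (hW H (by simp))).prm⟩

/-- **the ruled lemma on models** -/
theorem rl_th {L F : Type} [Field L] [Field F] [Algebra ℂ L] [Algebra ℂ F] [Algebra L F]
    [IsScalarTower ℂ L F] [Algebra.EssFiniteType ℂ L] [Algebra.EssFiniteType ℂ F] {n : ℕ}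
    (b : Basis (Fin n) L Ω[L⁄ℂ]) (b' : Basis (Fin (n + 1)) F Ω[F⁄ℂ]) {t : F}
    (ht : Transcendental L t) (htop : L⟮t⟯ = ⊤) {N : ℕ} (hN : N ≠ 0) {G D H : BD ℂ F}
    {A H₀ : BD ℂ L} (hD : D.Free) (hl : Lin (G + D) (pb (IsScalarTower.toAlgHom ℂ L F) A))
    (hH : IsMod H) (hH₀ : IsMod H₀) (hc : Car H (pb (IsScalarTower.toAlgHom ℂ L F) H₀))
    (hG : ∀ (W : PModel ℂ F) V, Prm (oP W) V → Prm H V → N * od V (kP W b') ≤ od V G)
    (hor : ∀ (W : PModel ℂ F) V, Prm (oP W) V → (∀ c : L, algebraMap L F c ∈ V.1) →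
      od V G ≤ N * (od V (kP W b') + 1)) :
    ∃ R : ℕ, 0 < R ∧ ∃ T : BD ℂ L, Lin T (R • A) ∧
      (∀ (Q : PModel ℂ L) w, Prm (oP Q) w → Prm H₀ w →
        ((R * N : ℕ) : ℤ) * od w (kP Q b) ≤ od w T) ∧
      ∀ (W : PModel ℂ F) (Q : PModel ℂ L) (V : RZ ℂ F) (w : RZ ℂ L) (m : ℕ),
        Prm (oP W) V → Prm (oP Q) w → (∀ x : L, nv V (algebraMap L F x) = nv w x ^ m) →
        R * (N * (m - 1) + od V G - N * od V (kP W b')) ≤
          m * (od w T - ((R * N : ℕ) : ℤ) * od w (kP Q b)) := by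
  obtain ⟨W, hW⟩ := exists_smooth (H := H)
  have hd : dim ℂ F = dim ℂ L + 1 := by
    rw [dim, dim, finrank_eq_card_basis b, finrank_eq_card_basis b', Fintype.card_fin,
      Fintype.card_fin]
  obtain ⟨R, hR, φ, hφ, h⟩ := rl b b' ht htop hN hD hl fun V h1 h2 => by
    have h3 := prm_of_hor hd hH₀ hc h1 h2
    exact ⟨W, hW V h3, hG W V (hW V h3) h3, hor W V (hW V h3) h1⟩
  refine ⟨R, hR, R • A - pr ℂ φ, ⟨φ⁻¹, inv_ne_zero hφ, by rw [pr_inv, sub_eq_add_neg]⟩,
    fun Q w h1 h2 => ?_, by simpa only [Nat.cast_mul] using h⟩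
  obtain ⟨V, h3, rfl⟩ := exists_prm_over hH hH₀ hc h2
  obtain ⟨-, m, hm, h4⟩ := exists_ram (L := L) h3.dvs fun h4 => h2.1 (eq_top_iff.2 fun x _ => h4 x)
  have h5 := h W Q V _ m (hW V h3) h1 h4
  have h6 := hG W V (hW V h3) h3
  have h7 : (0 : ℤ) ≤ R * (N * (m - 1) + od V G - N * od V (kP W b')) :=
    mul_nonneg (Int.natCast_nonneg R) (by nlinarith [Int.natCast_nonneg N])
  rw [Nat.cast_mul, ← sub_nonneg]
  exact nonneg_of_mul_nonneg_right (h7.trans h5) (by exact_mod_cast hm)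

end Smooth

end Crest.Agent.X262.Rl57
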